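import Vale.Agent.P179.H417.Bar4
import Vale.Agent.P179.Allb.DefsR

/-!
# Modules BAR and BARR of ALLB
-/

set_option autoImplicit false
set_option linter.unusedSectionVars false

namespace Vale.P179.H417.Bar

open Module Finset Vale.P179.Allb

section

variable {k D Λ : Type} [Field k] [CommGroup D] [Ring Λ] [Algebra k Λ]
  {p : ℕ} [Fact p.Prime] [CharP k p]

/-- the structure map of the local quotient -/
noncomputable def u1 (A : PX k D Λ) (Q : Subgroup D) [Fintype Q] :
    D ⧸ Q →* (CQ k A.u Q ⧸ KI (Q := Q) A.u A.t A.tc) :=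
  QuotientGroup.lift Q ((pi A.u Q A.t A.tc).toMonoidHom.comp (uC k A.u Q))
    (fun _ hq => MonoidHom.mem_ker.2 (pi_u (t := A.t) (tc := A.tc) hq))

theorem u1_mk (A : PX k D Λ) (Q : Subgroup D) [Fintype Q] (x : D) :
    u1 A Q (QuotientGroup.mk x) = pi A.u Q A.t A.tc (uC k A.u Q x) := rfl

/-- the local quotient as a member of the class `PX` -/
noncomputable def PX1 (A : PX k D Λ) (Q : Subgroup D) [Fintype Q] [Finite A.I]
    (hU : Untw A.u A.b Q) (hQ : IsPGroup p Q) :
    PX k (D ⧸ Q) (CQ k A.u Q ⧸ KI (Q := Q) A.u A.t A.tc) where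
  u := u1 A Q
  t := t1 A.u Q A.t A.tc
  I := I1 A.u A.b Q
  fin := Fintype.ofFinite _
  b := b1 A.stab hU hQ A.nd
  tc := t1_comm
  nd := t1_nondeg
  stab := by
    intro x y o
    induction x using QuotientGroup.induction_on with
    | H x =>
      induction y using QuotientGroup.induction_on with
      | H y =>
        obtain ⟨j, hj⟩ := exists_trans A.stab (out1 o) x y
        refine ⟨Quotient.mk _ j, ?_⟩
        rw [b1_mk, b1_apply, u1_mk, u1_mk, ← map_mul, ← map_mul]
        congr 1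
        exact Subtype.ext hj

theorem px1_fix (A : PX k D Λ) (Q : Subgroup D) [Fintype Q] [Finite A.I]
    (hU : Untw A.u A.b Q) (hQ : IsPGroup p Q) (x : D) (o : I1 A.u A.b Q) :
    (PX1 A Q hU hQ).u (QuotientGroup.mk x) * (PX1 A Q hU hQ).b o =
      (PX1 A Q hU hQ).b o * (PX1 A Q hU hQ).u (QuotientGroup.mk x) ↔
    A.u x * A.b (out1 o) = A.b (out1 o) * A.u x := by
  change u1 A Q (QuotientGroup.mk x) * b1 A.stab hU hQ A.nd o =
    b1 A.stab hU hQ A.nd o * u1 A Q (QuotientGroup.mk x) ↔ _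
  rw [u1_mk, b1_apply]
  exact fix_iff A.stab hU hQ A.nd (out1 o) x

theorem px1_cnt (A : PX k D Λ) (Q : Subgroup D) [Fintype Q] [Finite A.I]
    (hU : Untw A.u A.b Q) (hQ : IsPGroup p Q) (R : Subgroup D) (hR : Q ≤ R) :
    (PX1 A Q hU hQ).cnt (R.map (QuotientGroup.mk' Q)) * Nat.card Q = A.cnt R := by
  have h1 := card_fix A.stab hU R hR
  unfold PX.cnt
  rw [← h1]
  congr 1
  refine Nat.card_congr (Equiv.subtypeEquivRight fun o => ?_)
  constructor
  · intro h x hx
    exact (px1_fix A Q hU hQ x o).1 (h _ ⟨x, hx, rfl⟩)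
  · rintro h _ ⟨x, hx, rfl⟩
    exact (px1_fix A Q hU hQ x o).2 (h x hx)

theorem px1_tw (A : PX k D Λ) (Q : Subgroup D) [Fintype Q] [Finite A.I]
    (hU : Untw A.u A.b Q) (hQ : IsPGroup p Q) (o : I1 A.u A.b Q) (x y : D ⧸ Q)
    (h : (PX1 A Q hU hQ).u x * (PX1 A Q hU hQ).b o = (PX1 A Q hU hQ).b o * (PX1 A Q hU hQ).u y) :
    y = x := by
  induction x using QuotientGroup.induction_on with
  | H x =>
    induction y using QuotientGroup.induction_on with
    | H y =>
      change u1 A Q (QuotientGroup.mk x) * b1 A.stab hU hQ A.nd o =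
        b1 A.stab hU hQ A.nd o * u1 A Q (QuotientGroup.mk y) at h
      rw [u1_mk, u1_mk, b1_apply, tw_iff A.stab hU hQ A.nd] at h
      obtain ⟨q, hq, h1, -⟩ := h
      rw [QuotientGroup.eq, h1, mul_inv_rev, mul_assoc, mul_comm, mul_assoc, mul_inv_cancel,
        mul_one]
      exact Q.inv_mem hq

end

theorem mem_CA {k D Λ : Type} [Field k] [CommGroup D] [Ring Λ] [Algebra k Λ] (A : PX k D Λ)
    (Q : Subgroup D) : A.CA Q = CQ k A.u Q := rfl

/-- **MODULE BARR**. -/
theorem barr : BARR := by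
  intro p _ k _ _ _ D _ _ τ e _ hτ Λ _ _ A Q hfr
  classical
  have : Fintype Q := Fintype.ofFinite Q
  have hfin := A.fin
  have hQ : IsPGroup p Q := hτ.pgr.to_subgroup Q
  have hU : Untw A.u A.b Q := by
    intro i hi x y hxy
    obtain ⟨s, hs⟩ := A.tw i
    have h1 : e ∣ s := hfr s fun q hq => (hs q q (hi q hq)).symm
    obtain ⟨m, rfl⟩ := h1
    have h2 := hs x y hxy
    rw [pow_mul, hτ.pow, one_pow] at h2
    exact h2
  let A0 : PX k (D ⧸ Q) (CQ k A.u Q ⧸ KI (Q := Q) A.u A.t A.tc) := PX1 A.toPX Q hU hQ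
  have hcnt : ∀ R : Subgroup D, Q ≤ R →
      A0.cnt (R.map (QuotientGroup.mk' Q)) * Nat.card Q = A.cnt R := px1_cnt A.toPX Q hU hQ
  have htop : (⊤ : Subgroup D).map (QuotientGroup.mk' Q) = ⊤ := by
    rw [← MonoidHom.range_eq_map, MonoidHom.range_eq_top]
    exact QuotientGroup.mk'_surjective Q
  have hQ0 : Nat.card Q ≠ 0 := Nat.card_pos.ne'
  let A1 : AX k (D ⧸ Q) (CQ k A.u Q ⧸ KI (Q := Q) A.u A.t A.tc) 1 1 :=
    { A0 with
      n := 1
      npow := one_pow 1
      nu := fun x => by rw [one_mul, mul_one]; rfl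
      tw := fun o => ⟨0, fun x y h => by
        rw [px1_tw A.toPX Q hU hQ o x y h]; rfl⟩
      loc := by
        intro z hz
        obtain ⟨a, ha, rfl⟩ := lift_inv (tc := A.tc) A.stab hU hQ A.nd z (fun x => by
          have := hz (QuotientGroup.mk x)
          exact this)
        rcases A.loc a ha with h | h
        · left
          obtain ⟨c, hc1, hc2⟩ : ∃ c : Λ, (a : Λ) * c = 1 ∧ c * a = 1 := by
            obtain ⟨w, hw⟩ := h
            exact ⟨w⁻¹.1, by rw [← hw]; exact w.mul_inv, by rw [← hw]; exact w.inv_mul⟩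
          have hcQ : c ∈ CQ k A.u Q := by
            rw [mem_CQ]
            intro q _
            calc A.u q * c = (c * a) * (A.u q * c) := by rw [hc2, one_mul]
              _ = c * (A.u q * a) * c := by rw [ha q]; simp only [mul_assoc]
              _ = c * A.u q * (a * c) := by simp only [mul_assoc]
              _ = c * A.u q := by rw [hc1, mul_one]
          refine ⟨⟨_, pi A.u Q A.t A.tc ⟨c, hcQ⟩, ?_, ?_⟩, rfl⟩
          · rw [← map_mul, ← map_one (pi A.u Q A.t A.tc)]
            congr 1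
            exact Subtype.ext hc1
          · rw [← map_mul, ← map_one (pi A.u Q A.t A.tc)]
            congr 1
            exact Subtype.ext hc2
        · right
          obtain ⟨m, hm⟩ := h
          refine ⟨m, ?_⟩
          rw [← map_pow, ← map_zero (pi A.u Q A.t A.tc)]
          congr 1
          exact Subtype.ext (by rw [Subalgebra.coe_pow, hm]; rfl)
      rank := by
        have h1 := hcnt ⊤ le_top
        rw [htop, A.rank] at h1
        have h2 : Nat.card D = Nat.card (D ⧸ Q) * Nat.card Q := Subgroup.card_eq_card_quotient_mul_card_subgroup Q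
        rw [h2] at h1
        exact Nat.eq_of_mul_eq_mul_right (Nat.pos_of_ne_zero hQ0) h1 }
  refine ⟨_, _, _, A1, pi A.u Q A.t A.tc, ⟨pi_surj, fun x h => rfl, fun a => ?_, hcnt⟩⟩
  change A.t (a * NQ A.u Q) = _
  rw [finsum_eq_sum_of_fintype]
  unfold NQ
  rw [Finset.mul_sum, map_sum]

/-- **MODULE BAR**. -/
theorem bar : BAR := by
  intro p _ k _ _ _ D _ _ τ e _ hτ Λ _ _ A Q hQ
  exact barr p k D τ e hτ.toTW0 Λ A Q (hτ.fr hQ)

end Vale.P179.H417.Bar
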