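import Vale.Agent.P179.H417.Perm2
import Vale.Agent.P179.Allb.Defs

/-!
# Module CUTP of ALLB: corners of algebras with a `D × D`-stable basis
-/

set_option autoImplicit false

namespace Vale.P179.H417

open Module Vale.P179.Allb

section Corner

variable {k R : Type} [Field k] [Ring R] [Algebra k R] {j : R}

/-- the corner as a submodule -/
def cornerSub (k : Type) {R : Type} [Field k] [Ring R] [Algebra k R] (j : R) : Submodule k R where
  carrier := {a | j * a * j = a}
  add_mem' := by
    intro a b ha hb
    change j * (a + b) * j = a + b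
    rw [mul_add, add_mul]
    rw [show j * a * j = a from ha, show j * b * j = b from hb]
  zero_mem' := by
    change j * 0 * j = 0
    rw [mul_zero, zero_mul]
  smul_mem' := by
    intro c a ha
    change j * (c • a) * j = c • a
    rw [mul_smul_comm, smul_mul_assoc, show j * a * j = a from ha]

theorem mem_cornerSub {a : R} : a ∈ cornerSub k j ↔ j * a * j = a := Iff.rfl

theorem corner_left (hj : j * j = j) {a : R} (ha : j * a * j = a) : j * a = a := by
  rw [← ha]
  calc j * (j * a * j) = (j * j) * a * j := by simp only [mul_assoc]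
    _ = _ := by rw [hj]

theorem corner_right (hj : j * j = j) {a : R} (ha : j * a * j = a) : a * j = a := by
  rw [← ha]
  calc (j * a * j) * j = j * a * (j * j) := by simp only [mul_assoc]
    _ = _ := by rw [hj]

/-- the ring structure of the corner -/
@[reducible] def cornerRing (k : Type) {R : Type} [Field k] [Ring R] [Algebra k R] (j : R)
    (hj : j * j = j) : Ring (cornerSub k j) :=
  { (inferInstance : AddCommGroup (cornerSub k j)) with
    mul := fun a b => ⟨a.1 * b.1, by
      have h1 : j * a.1 = a.1 := corner_left hj a.2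
      have h2 : b.1 * j = b.1 := corner_right hj b.2
      change j * (a.1 * b.1) * j = a.1 * b.1
      rw [← mul_assoc, h1, mul_assoc, h2]⟩
    one := ⟨j, by change j * j * j = j; rw [hj, hj]⟩
    mul_assoc := fun a b c => Subtype.ext (mul_assoc a.1 b.1 c.1)
    one_mul := fun a => Subtype.ext (corner_left hj a.2)
    mul_one := fun a => Subtype.ext (corner_right hj a.2)
    left_distrib := fun a b c => Subtype.ext (mul_add a.1 b.1 c.1)
    right_distrib := fun a b c => Subtype.ext (add_mul a.1 b.1 c.1)
    zero_mul := fun a => Subtype.ext (zero_mul a.1)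
    mul_zero := fun a => Subtype.ext (mul_zero a.1) }

/-- the algebra structure of the corner -/
@[reducible] def cornerAlgebra (k : Type) {R : Type} [Field k] [Ring R] [Algebra k R] (j : R)
    (hj : j * j = j) : @Algebra k (cornerSub k j) _ (cornerRing k j hj).toSemiring := by
  letI := cornerRing k j hj
  exact Algebra.ofModule (fun r x y => Subtype.ext (smul_mul_assoc r x.1 y.1))
    (fun r x y => Subtype.ext (mul_smul_comm r x.1 y.1))

end Corner

theorem cutp : CUTP := by
  intro p _ k _ _ D _ _ hD R _ _ A j hj hju
  have hfin := A.fin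
  let _ := cornerRing k j hj
  let _ := cornerAlgebra k j hj
  obtain ⟨b', hb', hb2⟩ := exchange_corner (k := k) hD A.u A.b A.stab j hj
    (fun x => (hju x).symm)
  let π : R →ₗ[k] R := (LinearMap.mulLeft k j) ∘ₗ (LinearMap.mulRight k j)
  have hπ : ∀ a, π a = j * a * j := fun a => (mul_assoc j a j).symm
  let v : cornerSub k j →ₗ[k] R := (cornerSub k j).subtype
  obtain ⟨d, hd⟩ := range_basis b' π (fun i => by rw [hπ]; exact hb2 i) v
    Subtype.val_injective (fun m => by rw [hπ]; exact m.2)
    (fun w hw => ⟨⟨w, by rw [hπ] at hw; exact hw⟩, rfl⟩)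
  have hju' : ∀ x, j * A.u x = A.u x * j := fun x => (hju x).symm
  let u' : D →* cornerSub k j :=
    { toFun := fun x => ⟨A.u x * j, by
        change j * (A.u x * j) * j = A.u x * j
        rw [← mul_assoc, hju', mul_assoc, mul_assoc, hj, hj]⟩
      map_one' := Subtype.ext (by
        change A.u 1 * j = j
        rw [map_one, one_mul])
      map_mul' := fun x y => Subtype.ext (by
        change A.u (x * y) * j = A.u x * j * (A.u y * j)
        rw [map_mul, mul_assoc (A.u x) j, ← mul_assoc j, hju', mul_assoc (A.u y), hj, mul_assoc]) }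
  have hu' : ∀ x, ((u' x : cornerSub k j) : R) = A.u x * j := fun x => rfl
  have hmul : ∀ x y : cornerSub k j, ((x * y : cornerSub k j) : R) = (x : R) * (y : R) :=
    fun x y => rfl
  have hl : ∀ (x : D) (a : cornerSub k j), ((u' x * a : cornerSub k j) : R) = A.u x * a := by
    intro x a
    rw [hmul, hu', mul_assoc, corner_left hj a.2]
  have hr : ∀ (x : D) (a : cornerSub k j), ((a * u' x : cornerSub k j) : R) = a * A.u x := by
    intro x a
    rw [hmul, hu', ← hju', ← mul_assoc, corner_right hj a.2]
  have hdv : ∀ i, ((d i : cornerSub k j) : R) = b' i.1 := hd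
  have hI : Finite {i : A.I // π (b' i) = b' i} := inferInstance
  let A' : PX k D (cornerSub k j) :=
    { u := u'
      t := A.t ∘ₗ v
      I := {i : A.I // π (b' i) = b' i}
      fin := Fintype.ofFinite _
      b := d
      tc := fun x y => A.tc x.1 y.1
      nd := fun x hx => by
        refine Subtype.ext (A.nd x.1 fun y => ?_)
        have h1 := hx ⟨j * y * j, by
          change j * (j * y * j) * j = j * y * j
          calc j * (j * y * j) * j = (j * j) * y * (j * j) := by simp only [mul_assoc]
            _ = _ := by rw [hj]⟩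
        have h2 : A.t (x.1 * (j * y * j)) = 0 := h1
        have h3 : x.1 * (j * y * j) = x.1 * y * j := by
          rw [← mul_assoc, ← mul_assoc, corner_right hj x.2]
        rw [h3, A.tc, ← mul_assoc, corner_left hj x.2] at h2
        exact h2
      stab := fun x y i => by
        obtain ⟨l, hl'⟩ : ∃ l, A.u x * b' i.1 * A.u y = b' l := by
          obtain ⟨l, hl'⟩ := A.stab x y i.1
          exact ⟨l, (hb' x y i.1 l).1 hl'⟩
        have hlm : π (b' l) = b' l := by
          have h1 : j * b' i.1 * j = b' i.1 := by rw [← hπ]; exact i.2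
          rw [hπ, ← hl']
          calc j * (A.u x * b' i.1 * A.u y) * j
              = (j * A.u x) * b' i.1 * (A.u y * j) := by simp only [mul_assoc]
            _ = (A.u x * j) * b' i.1 * (j * A.u y) := by
                rw [hju' x, ← hju y]
            _ = A.u x * (j * b' i.1 * j) * A.u y := by simp only [mul_assoc]
            _ = _ := by rw [h1]
        refine ⟨⟨l, hlm⟩, Subtype.ext ?_⟩
        rw [hr, hl, hdv, hdv]
        exact hl' }
  refine ⟨cornerSub k j, inferInstance, inferInstance, v, A', ⟨Subtype.val_injective,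
    fun x y => rfl, rfl, fun a ha => ⟨⟨a, ha⟩, rfl⟩⟩, fun x => rfl, fun a => rfl, fun i' => ?_⟩
  refine ⟨i'.1, fun x y => ?_⟩
  have e1 : (A'.u x * A'.b i' = A'.b i' * A'.u y) ↔ A.u x * b' i'.1 = b' i'.1 * A.u y := by
    rw [← hdv i', ← hl, ← hr]
    exact Subtype.ext_iff
  rw [e1]
  -- `u x * b' i = b' i * u y` iff `u x * b' i * u y⁻¹ = b' i`
  have e2 : ∀ (c : Basis A.I k R) (i : A.I), (A.u x * c i = c i * A.u y) ↔
      A.u x * c i * A.u y⁻¹ = c i := by
    intro c i
    have hy : A.u y * A.u y⁻¹ = 1 := by rw [← map_mul, mul_inv_cancel, map_one]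
    have hy' : A.u y⁻¹ * A.u y = 1 := by rw [← map_mul, inv_mul_cancel, map_one]
    constructor
    · intro h
      rw [h, mul_assoc, hy, mul_one]
    · intro h
      conv_rhs => rw [← h]
      rw [mul_assoc, hy', mul_one]
  rw [e2 b', e2 A.b]
  exact (hb' x y⁻¹ i'.1 i'.1).symm

end Vale.P179.H417
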