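import Vale.Agent.P179.H417.Perm

/-!
# Permutation bases of corners, and the number of fixed points

* `exchange_two`: the `D × D`-form (`w ↦ u x * w * u y`) of the exchange theorem;
* `range_basis`, `corner_basis`: bases of the range, of a corner;
* `finrank_bq`: the number of `S`-fixed basis elements is the rank of `V^S → V_S`
  (invariants to coinvariants), so it does not depend on the basis.
-/

set_option autoImplicit false

namespace Vale.P179.H417

open Finset Module

section Two

variable {k Λ D Ω : Type*} [Field k] [Ring Λ] [Algebra k Λ] [CommGroup D] [Finite Ω]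
  {p : ℕ} [Fact p.Prime] [CharP k p]

/-- the representation of `D × D` on `Λ` -/
def rep2 (k : Type*) {Λ D : Type*} [Field k] [Ring Λ] [Algebra k Λ] [CommGroup D]
    (u : D →* Λ) : D × D →* Module.End k Λ where
  toFun z := (LinearMap.mulLeft k (u z.1)) * (LinearMap.mulRight k (u z.2))
  map_one' := by
    refine LinearMap.ext fun a => ?_
    simp [Module.End.mul_apply]
  map_mul' z w := by
    refine LinearMap.ext fun a => ?_
    simp only [Module.End.mul_apply, LinearMap.mulLeft_apply, LinearMap.mulRight_apply,
      Prod.fst_mul, Prod.snd_mul]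
    rw [mul_comm z.2 w.2, map_mul, map_mul]
    simp only [mul_assoc]

theorem rep2_apply (u : D →* Λ) (x y : D) (a : Λ) : rep2 k u (x, y) a = u x * a * u y := by
  change u x * (a * u y) = _
  rw [mul_assoc]

omit [Fact p.Prime] in
theorem isPGroup_prod (hD : IsPGroup p D) : IsPGroup p (D × D) := by
  intro z
  obtain ⟨m, hm⟩ := hD z.1
  obtain ⟨n, hn⟩ := hD z.2
  refine ⟨m + n, Prod.ext ?_ ?_⟩
  · change z.1 ^ p ^ (m + n) = 1
    rw [pow_add, pow_mul, hm, one_pow]
  · change z.2 ^ p ^ (m + n) = 1
    rw [pow_add, mul_comm (p ^ m), pow_mul, hn, one_pow]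

/-- **Exchange, two-sided form**: for every `(D,D)`-equivariant idempotent endomorphism `π` of
`Λ` there is a basis with the same `D × D`-structure adapted to `π`. -/
theorem exchange_two (hD : IsPGroup p D) (u : D →* Λ) (b : Basis Ω k Λ)
    (hb : ∀ x y ω, ∃ ω', u x * b ω * u y = b ω') (π : Λ →ₗ[k] Λ) (hπ : ∀ a, π (π a) = π a)
    (hl : ∀ x a, π (u x * a) = u x * π a) (hr : ∀ x a, π (a * u x) = π a * u x) :
    ∃ φ : Λ ≃ₗ[k] Λ, (∀ x y a, φ (u x * a * u y) = u x * φ a * u y) ∧
      ∀ ω, π (φ (b ω)) = φ (b ω) ∨ π (φ (b ω)) = 0 := by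
  have hc : ∀ h : D × D, π * rep2 k u h = rep2 k u h * π := by
    rintro ⟨x, y⟩
    refine LinearMap.ext fun a => ?_
    change π (rep2 k u (x, y) a) = rep2 k u (x, y) (π a)
    rw [rep2_apply, rep2_apply, hr, hl]
  obtain ⟨φ, h1, h2⟩ := exchange (isPGroup_prod hD) (rep2 k u) b
    (fun h i => by
      obtain ⟨j, hj⟩ := hb h.1 h.2 i
      exact ⟨j, by rw [← hj, ← rep2_apply (k := k)]⟩) π
    (LinearMap.ext fun a => hπ a) hc
  refine ⟨φ, fun x y a => ?_, h2⟩
  rw [← rep2_apply (k := k), h1, rep2_apply]

/-- Same, for the corner of an idempotent commuting with `D`; the index type and the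
`D × D`-structure of the basis do not change. -/
theorem exchange_corner (hD : IsPGroup p D) (u : D →* Λ) (b : Basis Ω k Λ)
    (hb : ∀ x y ω, ∃ ω', u x * b ω * u y = b ω') (j : Λ) (hj : j * j = j)
    (hju : ∀ x, j * u x = u x * j) :
    ∃ b' : Basis Ω k Λ, (∀ x y ω ω', u x * b ω * u y = b ω' ↔ u x * b' ω * u y = b' ω') ∧
      ∀ ω, j * b' ω * j = b' ω ∨ j * b' ω * j = 0 := by
  let π : Λ →ₗ[k] Λ := (LinearMap.mulLeft k j) ∘ₗ (LinearMap.mulRight k j)
  have hπ : ∀ a, π a = j * a * j := fun a => (mul_assoc j a j).symm
  obtain ⟨φ, h1, h2⟩ := exchange_two hD u b hb π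
    (fun a => by
      rw [hπ, hπ]
      calc j * (j * a * j) * j = (j * j) * a * (j * j) := by simp only [mul_assoc]
        _ = _ := by rw [hj])
    (fun x a => by
      rw [hπ, hπ]
      calc j * (u x * a) * j = (j * u x) * a * j := by simp only [mul_assoc]
        _ = _ := by rw [hju]; simp only [mul_assoc])
    (fun x a => by
      rw [hπ, hπ]
      calc j * (a * u x) * j = j * a * (u x * j) := by simp only [mul_assoc]
        _ = _ := by rw [← hju]; simp only [mul_assoc])
  refine ⟨b.map φ, fun x y ω ω' => ?_, fun ω => ?_⟩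
  · rw [Basis.map_apply, Basis.map_apply, ← h1]
    exact φ.injective.eq_iff.symm
  · rw [Basis.map_apply, ← hπ]
    exact h2 ω

end Two

section Range

variable {k V M Ω : Type*} [Field k] [AddCommGroup V] [Module k V] [AddCommGroup M] [Module k M]

/-- An adapted basis gives a basis of the range: `M` is any module with an injection `c` onto
`{v | π v = v}`. -/
theorem range_basis (b : Basis Ω k V) (π : V →ₗ[k] V)
    (h : ∀ i, π (b i) = b i ∨ π (b i) = 0) (c : M →ₗ[k] V) (hc : Function.Injective c)
    (hcπ : ∀ m, π (c m) = c m) (hcs : ∀ v, π v = v → ∃ m, c m = v) :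
    ∃ d : Basis {i // π (b i) = b i} k M, ∀ i, c (d i) = b i.1 := by
  classical
  choose d hd using fun i : {i // π (b i) = b i} => hcs (b i.1) i.2
  have hli : LinearIndependent k d := by
    have h1 : LinearIndependent k (c ∘ d) := by
      have h2 : c ∘ d = fun i : {i // π (b i) = b i} => b i.1 := funext hd
      rw [h2]
      exact b.linearIndependent.comp _ Subtype.val_injective
    exact LinearIndependent.of_comp c h1
  have hsp : ⊤ ≤ Submodule.span k (Set.range d) := by
    intro m _
    have key : ∀ v, π v ∈ (Submodule.span k (Set.range d)).map c := by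
      intro v
      rw [← b.linearCombination_repr v, Finsupp.linearCombination_apply, Finsupp.sum, map_sum]
      refine Submodule.sum_mem _ fun i _ => ?_
      rw [map_smul]
      refine Submodule.smul_mem _ _ ?_
      rcases h i with hi | hi
      · rw [hi]
        exact ⟨d ⟨i, hi⟩, Submodule.subset_span ⟨_, rfl⟩, hd ⟨i, hi⟩⟩
      · rw [hi]; exact Submodule.zero_mem _
    obtain ⟨m', hm', e⟩ := key (c m)
    rw [hcπ] at e
    rwa [← hc e]
  refine ⟨Basis.mk hli hsp, fun i => ?_⟩
  rw [Basis.mk_apply]
  exact hd i

/-- counting: an adapted basis splits every set of indices into the part in the range and the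
part in the kernel -/
theorem card_split [Finite Ω] (P Q : Ω → Prop) :
    Nat.card {i // P i} = Nat.card {i : {i // Q i} // P i.1} + Nat.card {i : {i // ¬ Q i} // P i.1} := by
  classical
  have : Fintype Ω := Fintype.ofFinite Ω
  rw [← Nat.card_sum]
  refine Nat.card_congr
    { toFun := fun i => if h : Q i.1 then Sum.inl ⟨⟨i.1, h⟩, i.2⟩ else Sum.inr ⟨⟨i.1, h⟩, i.2⟩
      invFun := fun s => Sum.elim (fun i => ⟨i.1.1, i.2⟩) (fun i => ⟨i.1.1, i.2⟩) s
      left_inv := ?_
      right_inv := ?_ }
  · intro i
    by_cases h : Q i.1 <;> simp [h]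
  · rintro (⟨⟨i, hi⟩, h⟩ | ⟨⟨i, hi⟩, h⟩)
    · simp [hi]
    · simp [hi]

end Range

section Fix

variable {k V H Ω : Type*} [Field k] [AddCommGroup V] [Module k V] [Group H]

/-- the invariants of `S` -/
def inv (rep : H →* Module.End k V) (S : Subgroup H) : Submodule k V where
  carrier := {v | ∀ s ∈ S, rep s v = v}
  zero_mem' := fun s _ => map_zero _
  add_mem' := fun ha hb s hs => by rw [map_add, ha s hs, hb s hs]
  smul_mem' := fun c v hv s hs => by rw [map_smul, hv s hs]

/-- the submodule spanned by the `s v - v` -/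
def coinv (rep : H →* Module.End k V) (S : Subgroup H) : Submodule k V :=
  Submodule.span k {v | ∃ s ∈ S, ∃ w, v = rep s w - w}

/-- the rank of the map from invariants to coinvariants -/
noncomputable def bq (rep : H →* Module.End k V) (S : Subgroup H) : ℕ :=
  finrank k ((inv rep S).map (coinv rep S).mkQ)

theorem repr_coinv (rep : H →* Module.End k V) (S : Subgroup H) (b : Basis Ω k V)
    (hb : ∀ h i, ∃ j, rep h (b i) = b j) (i : Ω) (hi : ∀ s ∈ S, rep s (b i) = b i) (v : V)
    (hv : v ∈ coinv rep S) : b.repr v i = 0 := by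
  classical
  have h1 : ∀ s ∈ S, ∀ w, b.repr (rep s w) i = b.repr w i := by
    intro s hs w
    have : (Finsupp.lapply i).comp (b.repr.toLinearMap.comp (rep s)) =
        (Finsupp.lapply i).comp b.repr.toLinearMap := by
      refine b.ext fun j => ?_
      obtain ⟨l, hl⟩ := hb s j
      simp only [LinearMap.comp_apply, LinearEquiv.coe_coe, hl, Finsupp.lapply_apply,
        Basis.repr_self, Finsupp.single_apply]
      have h2 : l = i ↔ j = i := by
        constructor
        · rintro rfl
          have h3 : rep s⁻¹ (rep s (b j)) = rep s⁻¹ (b l) := by rw [hl]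
          rw [hi s⁻¹ (S.inv_mem hs), ← Module.End.mul_apply, ← map_mul, inv_mul_cancel, map_one,
            Module.End.one_apply] at h3
          exact b.injective h3
        · rintro rfl
          rw [hi s hs] at hl
          exact (b.injective hl).symm
      simp only [h2]
    exact congrArg (fun f => f w) this
  unfold coinv at hv
  induction hv using Submodule.span_induction with
  | mem x hx =>
    obtain ⟨s, hs, w, rfl⟩ := hx
    rw [map_sub, Finsupp.sub_apply, h1 s hs, sub_self]
  | zero => rw [map_zero, Finsupp.zero_apply]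
  | add x y _ _ hx hy => rw [map_add, Finsupp.add_apply, hx, hy, add_zero]
  | smul c x _ hx => rw [map_smul, Finsupp.smul_apply, hx, smul_zero]

variable {p : ℕ} [Fact p.Prime] [CharP k p] [Finite Ω]

/-- An invariant vector without fixed basis elements is zero in the coinvariants. -/
theorem mem_coinv (rep : H →* Module.End k V) (S : Subgroup H) (hS : IsPGroup p S)
    (b : Basis Ω k V)
    (hb : ∀ h i, ∃ j, rep h (b i) = b j) (v : V) (hv : v ∈ inv rep S)
    (h0 : ∀ i, (∀ s ∈ S, rep s (b i) = b i) → b.repr v i = 0) : v ∈ coinv rep S := by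
  classical
  have : Fintype Ω := Fintype.ofFinite Ω
  choose act hact using hb
  let A : MulAction S Ω :=
    { smul := fun s i => act s i
      one_smul := fun i => b.injective (by
        change b (act ((1 : S) : H) i) = b i
        rw [← hact]; simp)
      mul_smul := fun s t i => b.injective (by
        change b (act ((s * t : S) : H) i) = b (act s (act t i))
        rw [← hact, ← hact, ← hact, Subgroup.coe_mul, map_mul, Module.End.mul_apply]) }
  have hA : ∀ (s : S) (i : Ω), rep s (b i) = b (s • i) := fun s i => hact s i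
  have hsm : ∀ (s : S) (i : Ω), b.repr v (s • i) = b.repr v i := by
    intro s i
    have h1 : (Finsupp.lapply (s • i)).comp (b.repr.toLinearMap.comp (rep s)) =
        (Finsupp.lapply i).comp b.repr.toLinearMap := by
      refine b.ext fun j => ?_
      simp only [LinearMap.comp_apply, LinearEquiv.coe_coe, hA, Finsupp.lapply_apply,
        Basis.repr_self, Finsupp.single_apply]
      simp only [smul_left_cancel_iff]
    have h2 := congrArg (fun f => f v) h1
    simp only [LinearMap.comp_apply, LinearEquiv.coe_coe, Finsupp.lapply_apply] at h2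
    rwa [hv s s.2] at h2
  -- modulo the coinvariants, basis elements depend only on the orbit
  have hq : ∀ (s : S) (i : Ω), (coinv rep S).mkQ (b (s • i)) = (coinv rep S).mkQ (b i) := by
    intro s i
    rw [← sub_eq_zero, ← map_sub, Submodule.mkQ_apply, Submodule.Quotient.mk_eq_zero, ← hA]
    exact Submodule.subset_span ⟨s, s.2, b i, rfl⟩
  rw [← Submodule.Quotient.mk_eq_zero, ← Submodule.mkQ_apply, ← b.sum_repr v, map_sum]
  rw [← Finset.sum_fiberwise (s := Finset.univ)
    (g := fun i : Ω => (Quotient.mk'' i : MulAction.orbitRel.Quotient S Ω))]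
  refine Finset.sum_eq_zero fun O _ => ?_
  induction O using Quotient.inductionOn' with
  | h i =>
    have e1 : ∀ j ∈ Finset.univ.filter (fun j : Ω =>
        (Quotient.mk'' j : MulAction.orbitRel.Quotient S Ω) = Quotient.mk'' i),
        (coinv rep S).mkQ (b.repr v j • b j) = b.repr v i • (coinv rep S).mkQ (b i) := by
      intro j hj
      have hj' : j ∈ MulAction.orbit S i := by
        rw [← MulAction.orbitRel_apply]
        exact Quotient.eq''.1 (Finset.mem_filter.1 hj).2
      obtain ⟨s, rfl⟩ := hj'
      rw [map_smul]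
      change b.repr v (s • i) • (coinv rep S).mkQ (b (s • i)) = _
      rw [hsm, hq]
    rw [Finset.sum_congr rfl e1, Finset.sum_const]
    have hcard : (Finset.univ.filter (fun j : Ω =>
        (Quotient.mk'' j : MulAction.orbitRel.Quotient S Ω) = Quotient.mk'' i)).card =
        Nat.card (MulAction.orbit S i) := by
      rw [← Fintype.card_coe, ← Nat.card_eq_fintype_card]
      refine Nat.card_congr (Equiv.subtypeEquivRight fun j => ?_)
      rw [Finset.mem_filter, ← MulAction.orbitRel_apply]
      exact ⟨fun h => Quotient.eq''.1 h.2, fun h => ⟨Finset.mem_univ _, Quotient.eq''.2 h⟩⟩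
    rw [hcard]
    by_cases hi : ∀ s ∈ S, rep s (b i) = b i
    · rw [h0 i hi, zero_smul, smul_zero]
    · have hne : Nat.card (MulAction.orbit S i) ≠ 1 := by
        intro h1
        apply hi
        intro s hs
        have h2 : ∀ x y : MulAction.orbit S i, x = y := by
          intro x y
          have := Nat.card_eq_one_iff_unique.1 h1
          exact this.1.elim x y
        have h3 := h2 ⟨(⟨s, hs⟩ : S) • i, MulAction.mem_orbit _ _⟩ ⟨i, MulAction.mem_orbit_self _⟩
        have h4 : (⟨s, hs⟩ : S) • i = i := congrArg Subtype.val h3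
        have h5 := hA ⟨s, hs⟩ i
        rw [h4] at h5
        exact h5
      have hdvd : p ∣ Nat.card (MulAction.orbit S i) := by
        have hfin : Finite (MulAction.orbit S i) := inferInstance
        obtain ⟨n, hn⟩ := hS.card_orbit i
        rcases Nat.eq_zero_or_pos n with rfl | hn0
        · rw [pow_zero] at hn
          exact absurd hn hne
        · rw [hn]
          exact dvd_pow_self p hn0.ne'
      have h0' : ((Nat.card (MulAction.orbit S i) : ℕ) : k) = 0 := (CharP.cast_eq_zero_iff k p _).2 hdvd
      rw [← Nat.cast_smul_eq_nsmul k, h0', zero_smul]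

/-- **The number of fixed basis elements is intrinsic.** -/
theorem finrank_bq (rep : H →* Module.End k V) (S : Subgroup H) (hS : IsPGroup p S)
    (b : Basis Ω k V) (hb : ∀ h i, ∃ j, rep h (b i) = b j) :
    bq rep S = Nat.card {i // ∀ s ∈ S, rep s (b i) = b i} := by
  classical
  have : Fintype Ω := Fintype.ofFinite Ω
  let F := {i // ∀ s ∈ S, rep s (b i) = b i}
  let Φ : (V ⧸ coinv rep S) →ₗ[k] (F → k) := (coinv rep S).liftQ
    (LinearMap.pi fun i : F => (Finsupp.lapply i.1).comp b.repr.toLinearMap) (by
      intro v hv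
      rw [LinearMap.mem_ker]
      funext i
      exact repr_coinv rep S b hb i.1 i.2 v hv)
  have hΦ : ∀ v (i : F), Φ ((coinv rep S).mkQ v) i = b.repr v i.1 := fun v i => rfl
  let I := (inv rep S).map (coinv rep S).mkQ
  have hinj : Function.Injective (Φ.domRestrict I) := by
    rw [← LinearMap.ker_eq_bot, LinearMap.ker_eq_bot']
    rintro ⟨x, hx⟩ h
    obtain ⟨v, hv, rfl⟩ := hx
    refine Subtype.ext ?_
    change (coinv rep S).mkQ v = 0
    rw [Submodule.mkQ_apply, Submodule.Quotient.mk_eq_zero]
    refine mem_coinv rep S hS b hb v hv fun i hi => ?_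
    have := congrFun h ⟨i, hi⟩
    exact this
  have hsurj : Function.Surjective (Φ.domRestrict I) := by
    rw [← LinearMap.range_eq_top, eq_top_iff]
    intro f _
    have h1 : f = ∑ i : F, f i • (Pi.single i (1 : k) : F → k) := by
      funext j
      rw [Finset.sum_apply, Finset.sum_eq_single j]
      · simp
      · intro i _ hij
        simp [hij.symm]
      · intro h; exact absurd (Finset.mem_univ _) h
    rw [h1]
    refine Submodule.sum_mem _ fun i _ => Submodule.smul_mem _ _ ?_
    refine ⟨⟨(coinv rep S).mkQ (b i.1), b i.1, i.2, rfl⟩, ?_⟩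
    funext j
    change Φ ((coinv rep S).mkQ (b i.1)) j = _
    rw [hΦ, Basis.repr_self, Finsupp.single_apply, Pi.single_apply]
    by_cases hij : i = j
    · rw [if_pos (congrArg Subtype.val hij), if_pos hij.symm]
    · rw [if_neg (fun h => hij (Subtype.ext h)), if_neg (fun h => hij h.symm)]
  have e := LinearEquiv.ofBijective (Φ.domRestrict I) ⟨hinj, hsurj⟩
  unfold bq
  rw [e.finrank_eq, Module.finrank_fintype_fun_eq_card, Nat.card_eq_fintype_card]

end Fix

end Vale.P179.H417
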