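import Vale.Agent.P179.H417.Perm2

/-!
# The local quotient `Λ(Q) ⊗_{kQ} k` (module BAR of ALLB, part 1)

`Λ` a symmetric algebra with a `D × D`-stable basis. `CQ` the centraliser of `Q`, `NQ` the sum of
the elements of `Q`; the local quotient is `CQ` modulo the radical of `(a, c) ↦ t (a c NQ)`.
-/

set_option autoImplicit false

namespace Vale.P179.H417.Bar

open Module Finset

variable {k Λ D I : Type} [Field k] [Ring Λ] [Algebra k Λ] [CommGroup D]

/-- the centraliser of `Q` -/
abbrev CQ (k : Type) {Λ D : Type} [Field k] [Ring Λ] [Algebra k Λ] [CommGroup D] (u : D →* Λ)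
    (Q : Subgroup D) : Subalgebra k Λ :=
  Subalgebra.centralizer k (u '' (Q : Set D))

theorem mem_CQ {u : D →* Λ} {Q : Subgroup D} {a : Λ} :
    a ∈ CQ k u Q ↔ ∀ q ∈ Q, u q * a = a * u q := by
  rw [Subalgebra.mem_centralizer_iff]
  constructor
  · intro h q hq
    exact h _ ⟨q, hq, rfl⟩
  · rintro h _ ⟨q, hq, rfl⟩
    exact h q hq

theorem u_mem_CQ (u : D →* Λ) (Q : Subgroup D) (x : D) : u x ∈ CQ k u Q :=
  mem_CQ.2 fun q _ => by rw [← map_mul, ← map_mul, mul_comm]

/-- the sum of the elements of `Q` -/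
def NQ (u : D →* Λ) (Q : Subgroup D) [Fintype Q] : Λ := ∑ q : Q, u q

section

variable {u : D →* Λ} {Q : Subgroup D} [Fintype Q]

theorem comm_NQ {a : Λ} (ha : a ∈ CQ k u Q) : a * NQ u Q = NQ u Q * a := by
  unfold NQ
  rw [Finset.mul_sum, Finset.sum_mul]
  exact Finset.sum_congr rfl fun q _ => (mem_CQ.1 ha q q.2).symm

theorem u_mul_NQ {q : D} (hq : q ∈ Q) : u q * NQ u Q = NQ u Q := by
  unfold NQ
  rw [Finset.mul_sum]
  refine Fintype.sum_equiv (Equiv.mulLeft (⟨q, hq⟩ : Q)) _ _ fun x => ?_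
  rw [← map_mul]; rfl

theorem NQ_mul_u {q : D} (hq : q ∈ Q) : NQ u Q * u q = NQ u Q := by
  unfold NQ
  rw [Finset.sum_mul]
  refine Fintype.sum_equiv (Equiv.mulRight (⟨q, hq⟩ : Q)) _ _ fun x => ?_
  rw [← map_mul]; rfl

theorem NQ_mem : NQ u Q ∈ CQ k u Q :=
  mem_CQ.2 fun q hq => by rw [u_mul_NQ hq, NQ_mul_u hq]

end

/-- conjugation representation -/
def conj2 (k : Type) {Λ D : Type} [Field k] [Ring Λ] [Algebra k Λ] [CommGroup D] (u : D →* Λ) :
    D →* Module.End k Λ :=
  (rep2 k u).comp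
    { toFun := fun x => (x, x⁻¹)
      map_one' := by rw [inv_one]; rfl
      map_mul' := fun x y => by rw [mul_inv]; rfl }

theorem conj2_apply (u : D →* Λ) (x : D) (a : Λ) : conj2 k u x a = u x * a * u x⁻¹ :=
  rep2_apply u x x⁻¹ a

theorem uinv (u : D →* Λ) (x : D) : u x * u x⁻¹ = 1 := by
  rw [← map_mul, mul_inv_cancel, map_one]

theorem invu (u : D →* Λ) (x : D) : u x⁻¹ * u x = 1 := by
  rw [← map_mul, inv_mul_cancel, map_one]

theorem conj_eq_iff (u : D →* Λ) (x : D) (a c : Λ) :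
    u x * a * u x⁻¹ = c ↔ u x * a = c * u x := by
  constructor
  · rintro rfl
    rw [mul_assoc, invu, mul_one]
  · intro h
    rw [h, mul_assoc, uinv, mul_one]

/-- invariants of the conjugation representation -/
theorem mem_inv_iff (u : D →* Λ) (Q : Subgroup D) (a : Λ) :
    a ∈ inv (conj2 k u) Q ↔ a ∈ CQ k u Q := by
  rw [mem_CQ]
  refine forall_congr' fun q => forall_congr' fun _ => ?_
  rw [conj2_apply, conj_eq_iff]

section Form

variable {u : D →* Λ} {Q : Subgroup D} {t : Λ →ₗ[k] k}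

/-- coinvariants are orthogonal to the centraliser -/
theorem coinv_perp (tc : ∀ x y, t (x * y) = t (y * x)) {v : Λ} (hv : v ∈ coinv (conj2 k u) Q)
    {c : Λ} (hc : c ∈ CQ k u Q) : t (v * c) = 0 := by
  unfold coinv at hv
  induction hv using Submodule.span_induction with
  | mem x hx =>
    obtain ⟨s, hs, w, rfl⟩ := hx
    rw [conj2_apply, sub_mul, map_sub, sub_eq_zero]
    have h1 : u s * w * u s⁻¹ * c = u s * (w * c * u s⁻¹) := by
      rw [mul_assoc (u s * w), mem_CQ.1 hc s⁻¹ (Q.inv_mem hs)]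
      simp only [mul_assoc]
    rw [h1, tc, mul_assoc, invu, mul_one]
  | zero => rw [zero_mul, map_zero]
  | add x y _ _ hx hy => rw [add_mul, map_add, hx, hy, add_zero]
  | smul c' x _ hx => rw [smul_mul_assoc, map_smul, hx, smul_zero]

/-- the ideal of the local quotient -/
def KI [Fintype Q] (u : D →* Λ) (t : Λ →ₗ[k] k) (tc : ∀ x y, t (x * y) = t (y * x)) :
    Ideal (CQ k u Q) where
  carrier := {a | ∀ c : CQ k u Q, t (a * c * NQ u Q) = 0}
  add_mem' := by
    intro a b ha hb c
    have := ha c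
    have := hb c
    rw [Subalgebra.coe_add, add_mul, add_mul, map_add, ha c, hb c, add_zero]
  zero_mem' := by
    intro c
    rw [Subalgebra.coe_zero, zero_mul, zero_mul, map_zero]
  smul_mem' := by
    intro r a ha c
    have h1 : ((r • a : CQ k u Q) : Λ) = (r : Λ) * a := rfl
    have h2 := ha (c * r)
    rw [Subalgebra.coe_mul] at h2
    rw [h1]
    calc t ((r : Λ) * a * c * NQ u Q) = t ((r : Λ) * ((a : Λ) * c * NQ u Q)) := by
          simp only [mul_assoc]
      _ = t ((a : Λ) * c * NQ u Q * r) := tc _ _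
      _ = t ((a : Λ) * ((c : Λ) * r) * NQ u Q) := by
          rw [mul_assoc _ (NQ u Q), ← comm_NQ r.2]; simp only [mul_assoc]
      _ = 0 := h2

instance KI_twoSided [Fintype Q] (u : D →* Λ) (t : Λ →ₗ[k] k)
    (tc : ∀ x y, t (x * y) = t (y * x)) : (KI (Q := Q) u t tc).IsTwoSided where
  mul_mem_of_left := by
    intro a r ha c
    have h2 := ha (r * c)
    rw [Subalgebra.coe_mul] at h2
    rw [Subalgebra.coe_mul, mul_assoc (a : Λ)]
    exact h2

theorem mem_KI [Fintype Q] {tc : ∀ x y, t (x * y) = t (y * x)} {a : CQ k u Q} :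
    a ∈ KI (Q := Q) u t tc ↔ ∀ c : CQ k u Q, t (a * c * NQ u Q) = 0 := Iff.rfl

end Form

section Basis

variable {u : D →* Λ} {Q : Subgroup D} {t : Λ →ₗ[k] k} {b : Basis I k Λ}

/-- the coordinate functional at `i` is `w ↦ t (w * c)` -/
theorem exists_dual [Finite I] (tc : ∀ x y, t (x * y) = t (y * x))
    (nd : ∀ x, (∀ y, t (x * y) = 0) → x = 0) (b : Basis I k Λ)
    (f : Λ →ₗ[k] k) : ∃ c : Λ, ∀ w, t (w * c) = f w := by
  have : FiniteDimensional k Λ := Module.Finite.of_basis b
  let F : Λ →ₗ[k] (Λ →ₗ[k] k) :=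
    { toFun := fun c => t ∘ₗ LinearMap.mulRight k c
      map_add' := fun x y => LinearMap.ext fun w => by
        change t (w * (x + y)) = t (w * x) + t (w * y)
        rw [mul_add, map_add]
      map_smul' := fun r x => LinearMap.ext fun w => by
        change t (w * (r • x)) = r • t (w * x)
        rw [mul_smul_comm, map_smul] }
  have hF : Function.Injective F := by
    rw [← LinearMap.ker_eq_bot, LinearMap.ker_eq_bot']
    intro c hc
    refine nd c fun y => ?_
    rw [tc]
    exact congrArg (fun g => g y) hc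
  have hdim : finrank k Λ = finrank k (Λ →ₗ[k] k) := (Subspace.dual_finrank_eq (K := k) (V := Λ)).symm
  have hs : Function.Surjective F := (LinearMap.injective_iff_surjective_of_finrank_eq_finrank hdim).1 hF
  obtain ⟨c, hc⟩ := hs f
  exact ⟨c, fun w => congrArg (fun g => g w) hc⟩

variable (stab : ∀ (x y : D) (i : I), ∃ j, u x * b i * u y = b j)

include stab in
theorem hb_conj (x : D) (i : I) : ∃ j, conj2 k u x (b i) = b j := by
  obtain ⟨j, hj⟩ := stab x x⁻¹ i
  exact ⟨j, by rw [conj2_apply, hj]⟩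

/-- membership in the ideal in terms of coordinates -/
theorem mem_KI_iff [Finite I] [Fintype Q] {p : ℕ} [Fact p.Prime] [CharP k p]
    (stab : ∀ (x y : D) (i : I), ∃ j, u x * b i * u y = b j)
    (hQ : IsPGroup p Q) (tc : ∀ x y, t (x * y) = t (y * x))
    (nd : ∀ x, (∀ y, t (x * y) = 0) → x = 0) (a : CQ k u Q) :
    a ∈ KI (Q := Q) u t tc ↔
      ∀ i, (∀ q ∈ Q, u q * b i = b i * u q) → b.repr (a * NQ u Q) i = 0 := by
  constructor
  · intro ha i hi
    obtain ⟨c, hc⟩ := exists_dual tc nd b ((Finsupp.lapply i).comp b.repr.toLinearMap)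
    have hc' : ∀ w, t (w * c) = b.repr w i := hc
    -- invariance of the coordinate
    have hinv : ∀ q ∈ Q, ∀ w, b.repr (u q⁻¹ * w * u q) i = b.repr w i := by
      intro q hq w
      have h1 : u q⁻¹ * w * u q - w ∈ coinv (conj2 k u) Q := by
        refine Submodule.subset_span ⟨q⁻¹, Q.inv_mem hq, w, ?_⟩
        rw [conj2_apply, inv_inv]
      have h2 := repr_coinv (conj2 k u) Q b (hb_conj stab) i (fun s hs => by
        rw [conj2_apply, conj_eq_iff]; exact hi s hs) _ h1
      rw [map_sub, Finsupp.sub_apply, sub_eq_zero] at h2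
      exact h2
    have hcQ : c ∈ CQ k u Q := by
      rw [mem_CQ]
      intro q hq
      have h1 : u q * c * u q⁻¹ - c = 0 := by
        refine nd _ fun y => ?_
        rw [tc, mul_sub, map_sub, sub_eq_zero, hc', ← hinv q hq y, ← hc']
        calc t (y * (u q * c * u q⁻¹)) = t ((y * u q * c) * u q⁻¹) := by simp only [mul_assoc]
          _ = t (u q⁻¹ * (y * u q * c)) := tc _ _
          _ = _ := by simp only [mul_assoc]
      rw [sub_eq_zero, conj_eq_iff] at h1
      exact h1
    have h3 := ha ⟨c, hcQ⟩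
    rw [← hc']
    calc t ((a : Λ) * NQ u Q * c) = t ((a : Λ) * c * NQ u Q) := by
          rw [mul_assoc, ← comm_NQ hcQ, mul_assoc]
      _ = 0 := h3
  · intro h c
    have h1 : (a : Λ) * NQ u Q ∈ coinv (conj2 k u) Q := by
      refine mem_coinv (conj2 k u) Q hQ b (hb_conj stab) _ ?_ fun i hi => h i fun q hq => ?_
      · rw [mem_inv_iff]
        exact mul_mem a.2 NQ_mem
      · have := hi q hq
        rwa [conj2_apply, conj_eq_iff] at this
    have h2 := coinv_perp tc h1 c.2
    rw [← h2, mul_assoc, mul_assoc, comm_NQ c.2]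

end Basis

end Vale.P179.H417.Bar
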