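import Vale.Agent.P179.H417.Bar1

/-!
# The local quotient (module BAR of ALLB, part 2): the basis
-/

set_option autoImplicit false

namespace Vale.P179.H417.Bar

open Module Finset

variable {k Λ D I : Type} [Field k] [Ring Λ] [Algebra k Λ] [CommGroup D]

/-- the fixed indices -/
abbrev IQ (u : D →* Λ) (b : Basis I k Λ) (Q : Subgroup D) : Type :=
  {i : I // ∀ q ∈ Q, u q * b i = b i * u q}

/-- stabilisers of fixed indices are untwisted -/
def Untw (u : D →* Λ) (b : Basis I k Λ) (Q : Subgroup D) : Prop :=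
  ∀ i, (∀ q ∈ Q, u q * b i = b i * u q) → ∀ x y, u x * b i = b i * u y → y = x

/-- `Q`-translation on the fixed indices -/
def sQ (u : D →* Λ) (b : Basis I k Λ) (Q : Subgroup D) : Setoid (IQ u b Q) where
  r i j := ∃ q ∈ Q, u q * b i = b j
  iseqv :=
    { refl := fun i => ⟨1, Q.one_mem, by rw [map_one, one_mul]⟩
      symm := by
        rintro i j ⟨q, hq, h⟩
        exact ⟨q⁻¹, Q.inv_mem hq, by rw [← h, ← mul_assoc, invu, one_mul]⟩
      trans := by
        rintro i j l ⟨q, hq, h⟩ ⟨r, hr, h'⟩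
        exact ⟨r * q, Q.mul_mem hr hq, by rw [map_mul, mul_assoc, h, h']⟩ }

theorem sQ_iff {u : D →* Λ} {b : Basis I k Λ} {Q : Subgroup D} {i j : IQ u b Q} :
    (sQ u b Q) i j ↔ ∃ q ∈ Q, u q * b i = b j := Iff.rfl

/-- the index type of the local quotient -/
abbrev I1 (u : D →* Λ) (b : Basis I k Λ) (Q : Subgroup D) : Type := Quotient (sQ u b Q)

/-- a representative -/
noncomputable def out1 {u : D →* Λ} {b : Basis I k Λ} {Q : Subgroup D} (o : I1 u b Q) :
    IQ u b Q := Quotient.out o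

theorem out1_eq {u : D →* Λ} {b : Basis I k Λ} {Q : Subgroup D} (o : I1 u b Q) :
    Quotient.mk (sQ u b Q) (out1 o) = o := Quotient.out_eq o

theorem out1_rel {u : D →* Λ} {b : Basis I k Λ} {Q : Subgroup D} (i : IQ u b Q) :
    (sQ u b Q) (out1 (Quotient.mk (sQ u b Q) i)) i := Quotient.exact (out1_eq _)

theorem out1_iff {u : D →* Λ} {b : Basis I k Λ} {Q : Subgroup D} {o o' : I1 u b Q} :
    (sQ u b Q) (out1 o) (out1 o') ↔ o = o' := by
  constructor
  · intro h
    rw [← out1_eq o, ← out1_eq o']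
    exact Quotient.sound h
  · rintro rfl
    exact (sQ u b Q).refl _

section

variable {u : D →* Λ} {Q : Subgroup D} {b : Basis I k Λ}

/-- the basis elements in the centraliser -/
noncomputable def bI (i : IQ u b Q) : CQ k u Q := ⟨b i, mem_CQ.2 i.2⟩

@[simp] theorem coe_bI (i : IQ u b Q) : ((bI i : CQ k u Q) : Λ) = b i := rfl

theorem Untw.inj (hU : Untw u b Q) (i : IQ u b Q) {x y : D} (h : u x * b i = u y * b i) :
    x = y := by
  have h1 : u (y⁻¹ * x) * b i = b i * u 1 := by
    rw [map_mul, mul_assoc, h, ← mul_assoc, invu, one_mul, map_one, mul_one]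
  have h2 := hU i i.2 _ _ h1
  rw [eq_comm, inv_mul_eq_one] at h2
  exact h2.symm

/-- left and right translates of fixed indices are fixed -/
theorem fix_trans (i : IQ u b Q) (x y : D) {j : I} (h : u x * b i * u y = b j) :
    ∀ q ∈ Q, u q * b j = b j * u q := by
  intro q hq
  rw [← h]
  calc u q * (u x * b i * u y) = (u q * u x) * b i * u y := by simp only [mul_assoc]
    _ = (u x * u q) * b i * u y := by rw [← map_mul, ← map_mul, mul_comm]
    _ = u x * (u q * b i) * u y := by simp only [mul_assoc]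
    _ = u x * b i * (u q * u y) := by rw [i.2 q hq]; simp only [mul_assoc]
    _ = u x * b i * (u y * u q) := by rw [← map_mul, ← map_mul, mul_comm]
    _ = _ := by simp only [mul_assoc]

variable [Fintype Q]

theorem repr_NQ (stab : ∀ (x y : D) (i : I), ∃ j, u x * b i * u y = b j) (hU : Untw u b Q)
    (i j : IQ u b Q) [Decidable ((sQ u b Q) i j)] :
    b.repr (b i * NQ u Q) j = if (sQ u b Q) i j then 1 else 0 := by
  have h0 : ∀ q : Q, ∃ l, u q * b i = b l := by
    intro q
    obtain ⟨l, hl⟩ := stab q 1 i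
    exact ⟨l, by rw [← hl, map_one, mul_one]⟩
  choose f hf using h0
  have h1 : b i * NQ u Q = ∑ q : Q, b (f q) := by
    unfold NQ
    rw [Finset.mul_sum]
    exact Finset.sum_congr rfl fun q _ => by rw [← hf, i.2 q q.2]
  rw [h1, map_sum, Finsupp.finsetSum_apply]
  simp only [Basis.repr_self]
  split_ifs with h
  · obtain ⟨q, hq, h⟩ := h
    have hq' : f ⟨q, hq⟩ = j := b.injective (by rw [← hf]; exact h)
    rw [Finset.sum_eq_single ⟨q, hq⟩]
    · rw [hq', Finsupp.single_eq_same]
    · intro r _ hr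
      rw [Finsupp.single_eq_of_ne]
      intro h2
      apply hr
      have h3 : u r * b i = u q * b i := by rw [hf r, ← h2, ← h]
      exact Subtype.ext (hU.inj i h3)
    · intro h'; exact absurd (Finset.mem_univ _) h'
  · refine Finset.sum_eq_zero fun q _ => ?_
    rw [Finsupp.single_eq_of_ne]
    intro h2
    exact h ⟨q, q.2, by rw [hf, ← h2]⟩

variable {t : Λ →ₗ[k] k} {tc : ∀ x y, t (x * y) = t (y * x)}

/-- the projection onto the local quotient -/
abbrev pi (u : D →* Λ) (Q : Subgroup D) [Fintype Q] (t : Λ →ₗ[k] k)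
    (tc : ∀ x y, t (x * y) = t (y * x)) : CQ k u Q →ₐ[k] (CQ k u Q ⧸ KI (Q := Q) u t tc) :=
  Ideal.Quotient.mkₐ k (KI (Q := Q) u t tc)

theorem pi_eq_zero {a : CQ k u Q} : pi u Q t tc a = 0 ↔ a ∈ KI (Q := Q) u t tc := by
  rw [Ideal.Quotient.mkₐ_eq_mk, Ideal.Quotient.eq_zero_iff_mem]

theorem pi_surj : Function.Surjective (pi u Q t tc) := Ideal.Quotient.mkₐ_surjective k _

/-- the group elements in the centraliser -/
def uC (k : Type) {Λ D : Type} [Field k] [Ring Λ] [Algebra k Λ] [CommGroup D] (u : D →* Λ)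
    (Q : Subgroup D) : D →* CQ k u Q where
  toFun x := ⟨u x, u_mem_CQ u Q x⟩
  map_one' := Subtype.ext (map_one u)
  map_mul' x y := Subtype.ext (map_mul u x y)

omit [Fintype Q] in
@[simp] theorem coe_uC (x : D) : ((uC k u Q x : CQ k u Q) : Λ) = u x := rfl

theorem pi_u {q : D} (hq : q ∈ Q) : pi u Q t tc (uC k u Q q) = 1 := by
  rw [← map_one (pi u Q t tc), ← sub_eq_zero, ← map_sub, pi_eq_zero, mem_KI]
  intro c
  have h1 : ((uC k u Q q - 1 : CQ k u Q) : Λ) = u q - 1 := rfl
  rw [h1, sub_mul, sub_mul, one_mul, map_sub, sub_eq_zero]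
  rw [mul_assoc, tc, mul_assoc, NQ_mul_u hq]

theorem pi_uC_mul (x : D) {q : D} (hq : q ∈ Q) :
    pi u Q t tc (uC k u Q (q * x)) = pi u Q t tc (uC k u Q x) := by
  rw [map_mul, map_mul, pi_u hq, one_mul]

theorem pi_bI_congr {i j : IQ u b Q} (h : (sQ u b Q) i j) :
    pi u Q t tc (bI i) = pi u Q t tc (bI j) := by
  obtain ⟨q, hq, h⟩ := h
  have h1 : bI j = uC k u Q q * bI i := Subtype.ext h.symm
  rw [h1, map_mul, pi_u hq, one_mul]

variable [Finite I] {p : ℕ} [Fact p.Prime] [CharP k p]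

theorem linInd (stab : ∀ (x y : D) (i : I), ∃ j, u x * b i * u y = b j) (hU : Untw u b Q)
    (hQ : IsPGroup p Q) (nd : ∀ x, (∀ y, t (x * y) = 0) → x = 0) :
    LinearIndependent k (fun o : I1 u b Q => pi u Q t tc (bI (out1 o))) := by
  classical
  rw [linearIndependent_iff']
  intro s g hg o ho
  simp only [← map_smul, ← map_sum] at hg
  rw [pi_eq_zero, mem_KI_iff stab hQ tc nd] at hg
  have h1 := hg (out1 o).1 (out1 o).2
  have h2 : ((∑ o' ∈ s, g o' • bI (out1 o') : CQ k u Q) : Λ) =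
      ∑ o' ∈ s, g o' • b (out1 o') := by
    rw [AddSubmonoidClass.coe_finsetSum]
    rfl
  rw [h2, Finset.sum_mul, map_sum, Finsupp.finsetSum_apply] at h1
  simp only [smul_mul_assoc, map_smul, Finsupp.smul_apply, repr_NQ stab hU] at h1
  rw [Finset.sum_eq_single o] at h1
  · rw [if_pos ((sQ u b Q).refl _), smul_eq_mul, mul_one] at h1
    exact h1
  · intro o' _ ho'
    rw [if_neg, smul_zero]
    intro h
    exact ho' (out1_iff.1 h)
  · intro h; exact absurd ho h

theorem span_top (hQ : IsPGroup p Q) (stab : ∀ (x y : D) (i : I), ∃ j, u x * b i * u y = b j) :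
    ⊤ ≤ Submodule.span k (Set.range (fun o : I1 u b Q => pi u Q t tc (bI (out1 o)))) := by
  classical
  have : Fintype I := Fintype.ofFinite I
  intro z _
  obtain ⟨a, rfl⟩ := pi_surj (u := u) (Q := Q) (t := t) (tc := tc) z
  let aF : CQ k u Q := ∑ i : IQ u b Q, b.repr a i.1 • bI i
  have haF : ((aF : CQ k u Q) : Λ) = ∑ i : IQ u b Q, b.repr a i.1 • b i.1 := by
    change ((∑ i : IQ u b Q, b.repr a i.1 • bI i : CQ k u Q) : Λ) = _
    rw [AddSubmonoidClass.coe_finsetSum]
    rfl
  have hc : ((a - aF : CQ k u Q) : Λ) ∈ coinv (conj2 k u) Q := by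
    refine mem_coinv (conj2 k u) Q hQ b (hb_conj stab) _ ?_ fun i hi => ?_
    · rw [mem_inv_iff]
      exact (a - aF).2
    · have hi' : ∀ q ∈ Q, u q * b i = b i * u q := fun q hq => by
        have := hi q hq
        rwa [conj2_apply, conj_eq_iff] at this
      rw [Subalgebra.coe_sub, haF, map_sub, Finsupp.sub_apply, map_sum, Finsupp.finsetSum_apply]
      rw [Finset.sum_eq_single ⟨i, hi'⟩]
      · rw [map_smul, Basis.repr_self, Finsupp.smul_apply, Finsupp.single_eq_same, smul_eq_mul,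
          mul_one, sub_self]
      · intro j _ hj
        rw [map_smul, Basis.repr_self, Finsupp.smul_apply, Finsupp.single_eq_of_ne, smul_zero]
        intro h
        exact hj (Subtype.ext h.symm)
      · intro h; exact absurd (Finset.mem_univ _) h
  have h1 : pi u Q t tc a = pi u Q t tc aF := by
    rw [← sub_eq_zero, ← map_sub, pi_eq_zero, mem_KI]
    intro c
    rw [mul_assoc]
    exact coinv_perp tc hc (mul_mem c.2 NQ_mem)
  rw [h1]
  change pi u Q t tc (∑ i : IQ u b Q, b.repr a i.1 • bI i) ∈ _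
  rw [map_sum]
  refine Submodule.sum_mem _ fun i _ => ?_
  rw [map_smul]
  refine Submodule.smul_mem _ _ (Submodule.subset_span ⟨Quotient.mk _ i, ?_⟩)
  exact pi_bI_congr (out1_rel i)

end

end Vale.P179.H417.Bar
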