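import Vale.Agent.P179.H417.Bar2

/-!
# The local quotient (module BAR of ALLB, part 3): stabilisers, counts, lifting of invariants
-/

set_option autoImplicit false
set_option linter.unusedSectionVars false

namespace Vale.P179.H417.Bar

open Module Finset

variable {k Λ D I : Type} [Field k] [Ring Λ] [Algebra k Λ] [CommGroup D] [Finite I]
  {u : D →* Λ} {Q : Subgroup D} [Fintype Q] {b : Basis I k Λ} {t : Λ →ₗ[k] k}
  {tc : ∀ x y, t (x * y) = t (y * x)} {p : ℕ} [Fact p.Prime] [CharP k p]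

/-- the form of the local quotient -/
noncomputable def t1 (u : D →* Λ) (Q : Subgroup D) [Fintype Q] (t : Λ →ₗ[k] k)
    (tc : ∀ x y, t (x * y) = t (y * x)) : (CQ k u Q ⧸ KI (Q := Q) u t tc) →ₗ[k] k :=
  (((KI (Q := Q) u t tc).restrictScalars k).liftQ
    ((t ∘ₗ LinearMap.mulRight k (NQ u Q)) ∘ₗ (CQ k u Q).val.toLinearMap) (by
      intro a ha
      have h : t ((a : Λ) * ((1 : CQ k u Q) : Λ) * NQ u Q) = 0 := ha 1
      rw [LinearMap.mem_ker]
      change t (a * NQ u Q) = 0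
      rw [Subalgebra.coe_one, mul_one] at h
      exact h)) ∘ₗ (Submodule.Quotient.restrictScalarsEquiv k (KI (Q := Q) u t tc)).symm.toLinearMap

theorem t1_pi (a : CQ k u Q) : t1 u Q t tc (pi u Q t tc a) = t (a * NQ u Q) := rfl

theorem t1_comm (x y : CQ k u Q ⧸ KI (Q := Q) u t tc) :
    t1 u Q t tc (x * y) = t1 u Q t tc (y * x) := by
  obtain ⟨a, rfl⟩ := pi_surj x
  obtain ⟨c, rfl⟩ := pi_surj y
  rw [← map_mul, ← map_mul, t1_pi, t1_pi, Subalgebra.coe_mul, Subalgebra.coe_mul, mul_assoc, tc,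
    mul_assoc, ← comm_NQ a.2, mul_assoc]

theorem t1_nondeg (x : CQ k u Q ⧸ KI (Q := Q) u t tc)
    (h : ∀ y, t1 u Q t tc (x * y) = 0) : x = 0 := by
  obtain ⟨a, rfl⟩ := pi_surj x
  rw [pi_eq_zero, mem_KI]
  intro c
  have := h (pi u Q t tc c)
  rwa [← map_mul, t1_pi, Subalgebra.coe_mul] at this

/-- the basis of the local quotient -/
noncomputable def b1 (stab : ∀ (x y : D) (i : I), ∃ j, u x * b i * u y = b j)
    (hU : Untw u b Q) (hQ : IsPGroup p Q) (nd : ∀ x, (∀ y, t (x * y) = 0) → x = 0) :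
    Basis (I1 u b Q) k (CQ k u Q ⧸ KI (Q := Q) u t tc) :=
  Basis.mk (linInd (tc := tc) stab hU hQ nd) (span_top hQ stab)

/-- the translate of a fixed index -/
theorem exists_trans (stab : ∀ (x y : D) (i : I), ∃ j, u x * b i * u y = b j)
    (i : IQ u b Q) (x y : D) : ∃ j : IQ u b Q, u x * b i * u y = b j := by
  obtain ⟨j, hj⟩ := stab x y i
  exact ⟨⟨j, fix_trans i x y hj⟩, hj⟩

section

variable (stab : ∀ (x y : D) (i : I), ∃ j, u x * b i * u y = b j)
  (hU : Untw u b Q) (hQ : IsPGroup p Q) (nd : ∀ x, (∀ y, t (x * y) = 0) → x = 0)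

theorem b1_apply (o : I1 u b Q) :
    b1 (tc := tc) stab hU hQ nd o = pi u Q t tc (bI (out1 o)) := by
  unfold b1
  rw [Basis.mk_apply]

theorem b1_mk (i : IQ u b Q) :
    b1 (tc := tc) stab hU hQ nd (Quotient.mk _ i) = pi u Q t tc (bI i) := by
  rw [b1_apply]
  exact pi_bI_congr (out1_rel i)

include stab hU hQ nd in
theorem pi_bI_iff {i j : IQ u b Q} :
    pi u Q t tc (bI i) = pi u Q t tc (bI j) ↔ (sQ u b Q) i j := by
  constructor
  · intro h
    rw [← b1_mk stab hU hQ nd, ← b1_mk stab hU hQ nd] at h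
    exact Quotient.exact ((b1 (tc := tc) stab hU hQ nd).injective h)
  · exact pi_bI_congr

include stab hU hQ nd in
theorem tw_iff (i : IQ u b Q) (x y : D) :
    pi u Q t tc (uC k u Q x) * pi u Q t tc (bI i) =
      pi u Q t tc (bI i) * pi u Q t tc (uC k u Q y) ↔
    ∃ q ∈ Q, y = q * x ∧ u (q * x) * b i = b i * u y := by
  obtain ⟨j, hj⟩ := exists_trans stab i x 1
  obtain ⟨l, hl⟩ := exists_trans stab i 1 y
  rw [map_one, mul_one] at hj
  rw [map_one, one_mul] at hl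
  have e1 : uC k u Q x * bI i = bI j := Subtype.ext hj
  have e2 : bI i * uC k u Q y = bI l := Subtype.ext hl
  rw [← map_mul, ← map_mul, e1, e2, pi_bI_iff stab hU hQ nd, sQ_iff]
  constructor
  · rintro ⟨q, hq, h⟩
    have h1 : u (q * x) * b i = b i * u y := by
      rw [map_mul, mul_assoc, hj, h, hl]
    exact ⟨q, hq, hU i i.2 _ _ h1, h1⟩
  · rintro ⟨q, hq, -, h⟩
    refine ⟨q, hq, ?_⟩
    rw [← hj, ← hl, ← h, map_mul, mul_assoc]

include stab hU hQ nd in
theorem fix_iff (i : IQ u b Q) (x : D) :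
    pi u Q t tc (uC k u Q x) * pi u Q t tc (bI i) =
      pi u Q t tc (bI i) * pi u Q t tc (uC k u Q x) ↔ u x * b i = b i * u x := by
  rw [tw_iff stab hU hQ nd]
  constructor
  · rintro ⟨q, -, h1, h2⟩
    rwa [← h1] at h2
  · intro h
    exact ⟨1, Q.one_mem, (one_mul x).symm, by rw [one_mul]; exact h⟩

end

/-- conjugation of a fixed index, with a choice of the index -/
theorem exists_cx (stab : ∀ (x y : D) (i : I), ∃ j, u x * b i * u y = b j) :
    ∃ cx : D → IQ u b Q → IQ u b Q, ∀ (x : D) (i : IQ u b Q), u x * b i * u x⁻¹ = b (cx x i) := by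
  choose cx hcx using fun (x : D) (i : IQ u b Q) => exists_trans stab i x x⁻¹
  exact ⟨cx, hcx⟩

theorem tw_conj (hU : Untw u b Q) (r : IQ u b Q) {X y q : D}
    (h : u X * b r * u X⁻¹ = u q * (u y * b r * u y⁻¹)) : q = 1 := by
  have h1 : u (y⁻¹ * q⁻¹ * X) * b r = b r * u (y⁻¹ * X) := by
    calc u (y⁻¹ * q⁻¹ * X) * b r = u (y⁻¹ * q⁻¹) * (u X * b r * u X⁻¹) * u X := by
          rw [map_mul _ _ X]; simp only [mul_assoc, invu, mul_one]
      _ = u (y⁻¹ * q⁻¹) * (u q * (u y * b r * u y⁻¹)) * u X := by rw [h]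
      _ = (u (y⁻¹ * q⁻¹) * (u q * u y)) * b r * (u y⁻¹ * u X) := by simp only [mul_assoc]
      _ = b r * u (y⁻¹ * X) := by
          rw [← map_mul, ← map_mul, ← map_mul]
          have : y⁻¹ * q⁻¹ * (q * y) = 1 := by group
          rw [this, map_one, one_mul]
  have h2 := hU r r.2 _ _ h1
  have h3 : y⁻¹ * X = q⁻¹ * (y⁻¹ * X) := by
    rw [h2]
    rw [mul_comm y⁻¹ q⁻¹, mul_assoc] at h2
    rw [mul_comm y⁻¹ q⁻¹, mul_assoc, ← h2]
    exact h2
  have h5 : (1 : D) = q⁻¹ := by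
    have := congrArg (· * (y⁻¹ * X)⁻¹) h3
    simpa [mul_assoc] using this
  exact (inv_eq_one.1 h5.symm)

/-- an equivariant section of `I^Q → I^Q / Q` -/
theorem exists_section (hU : Untw u b Q) (cx : D → IQ u b Q → IQ u b Q)
    (hcx : ∀ (x : D) (i : IQ u b Q), u x * b i * u x⁻¹ = b (cx x i)) :
    ∃ σ : IQ u b Q → IQ u b Q, (∀ i, (sQ u b Q) (σ i) i) ∧
      ∀ (x : D) (i j : IQ u b Q), (sQ u b Q) (cx x i) j → σ j = cx x (σ i) := by
  classical
  -- conjugation by products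
  have hmul : ∀ x y (a : Λ), u (x * y) * a * u (x * y)⁻¹ = u x * (u y * a * u y⁻¹) * u x⁻¹ := by
    intro x y a
    rw [mul_inv_rev, map_mul, map_mul]
    simp only [mul_assoc]
  have hQx : ∀ (x q : D) (a : Λ), u x * (u q * a) * u x⁻¹ = u q * (u x * a * u x⁻¹) := by
    intro x q a
    calc u x * (u q * a) * u x⁻¹ = (u x * u q) * a * u x⁻¹ := by simp only [mul_assoc]
      _ = (u q * u x) * a * u x⁻¹ := by rw [← map_mul, ← map_mul, mul_comm]
      _ = _ := by simp only [mul_assoc]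
  let S : Setoid (IQ u b Q) :=
    { r := fun i j => ∃ x, ∃ q ∈ Q, u q * (u x * b i * u x⁻¹) = b j
      iseqv :=
        { refl := fun i => ⟨1, 1, Q.one_mem, by simp⟩
          symm := by
            rintro i j ⟨x, q, hq, h⟩
            refine ⟨x⁻¹, q⁻¹, Q.inv_mem hq, ?_⟩
            rw [← h, hQx, ← hmul, inv_mul_cancel, ← mul_assoc, invu]
            simp
          trans := by
            rintro i j l ⟨x, q, hq, h⟩ ⟨y, r, hr, h'⟩
            refine ⟨y * x, r * q, Q.mul_mem hr hq, ?_⟩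
            rw [← h', ← h, hmul, hQx, map_mul, mul_assoc] } }
  have hS : ∀ {i j : IQ u b Q}, S i j ↔ ∃ x, ∃ q ∈ Q, u q * (u x * b i * u x⁻¹) = b j :=
    fun {i j} => Iff.rfl
  let r : IQ u b Q → IQ u b Q := fun i => Quotient.out (Quotient.mk S i)
  have hr : ∀ i, ∃ x, ∃ q ∈ Q, u q * (u x * b (r i) * u x⁻¹) = b i := fun i =>
    hS.1 (Quotient.exact (Quotient.out_eq (Quotient.mk S i)))
  choose X q hq hX using hr
  refine ⟨fun i => cx (X i) (r i), fun i => ⟨q i, hq i, by rw [← hcx, hX]⟩, ?_⟩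
  rintro x i j ⟨s, hs, h⟩
  rw [← hcx] at h
  have hrij : r i = r j := by
    change Quotient.out (Quotient.mk S i) = Quotient.out (Quotient.mk S j)
    rw [Quotient.sound (hS.2 ⟨x, s, hs, h⟩ : S i j)]
  refine Subtype.ext (b.injective ?_)
  rw [← hcx, ← hcx, ← hcx, ← hmul]
  have h1 : u (X j) * b (r j) * u (X j)⁻¹ =
      u ((q j)⁻¹ * (s * q i)) * (u (x * X i) * b (r j) * u (x * X i)⁻¹) := by
    have h2 : u (q j) * (u (X j) * b (r j) * u (X j)⁻¹) =
        u (s * q i) * (u (x * X i) * b (r j) * u (x * X i)⁻¹) := by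
      rw [hX, ← h, ← hX i, hQx, map_mul _ s, mul_assoc (u s), hmul, hrij]
    rw [map_mul _ (q j)⁻¹, mul_assoc (u (q j)⁻¹), ← h2, ← mul_assoc (u (q j)⁻¹), invu, one_mul]
  have h3 := tw_conj hU (r j) h1
  rw [h1, h3, map_one, one_mul, hrij]

end Vale.P179.H417.Bar
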