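import Vale.Agent.P179.H417.Bar3

/-!
# The local quotient (module BAR of ALLB, part 4): lifting of invariants and counts
-/

set_option autoImplicit false
set_option linter.unusedSectionVars false

namespace Vale.P179.H417.Bar

open Module Finset

variable {k Λ D I : Type} [Field k] [Ring Λ] [Algebra k Λ] [CommGroup D] [Finite I]
  {u : D →* Λ} {Q : Subgroup D} [Fintype Q] {b : Basis I k Λ} {t : Λ →ₗ[k] k}
  {tc : ∀ x y, t (x * y) = t (y * x)} {p : ℕ} [Fact p.Prime] [CharP k p]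

/-- **Lifting of invariants**: an element of the local quotient commuting with `D` is the image of
an element commuting with `D`. -/
theorem lift_inv (stab : ∀ (x y : D) (i : I), ∃ j, u x * b i * u y = b j)
    (hU : Untw u b Q) (hQ : IsPGroup p Q) (nd : ∀ x, (∀ y, t (x * y) = 0) → x = 0)
    (z : CQ k u Q ⧸ KI (Q := Q) u t tc)
    (hz : ∀ x, pi u Q t tc (uC k u Q x) * z = z * pi u Q t tc (uC k u Q x)) :
    ∃ a : CQ k u Q, (∀ x, u x * a = a * u x) ∧ pi u Q t tc a = z := by
  classical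
  have : Fintype I := Fintype.ofFinite I
  have : Fintype (I1 u b Q) := Fintype.ofFinite _
  obtain ⟨cx, hcx⟩ := exists_cx (Q := Q) stab
  obtain ⟨σ, hσ1, hσ2⟩ := exists_section hU cx hcx
  let B := b1 (tc := tc) stab hU hQ nd
  have hBa : ∀ o, B o = pi u Q t tc (bI (out1 o)) := b1_apply stab hU hQ nd
  have hBm : ∀ i : IQ u b Q, B (Quotient.mk _ i) = pi u Q t tc (bI i) := b1_mk stab hU hQ nd
  -- conjugation on the index set of the quotient
  let g : D → I1 u b Q → I1 u b Q := fun x o => Quotient.mk _ (cx x (out1 o))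
  have hcI : ∀ (x : D) (i : IQ u b Q), uC k u Q x * bI i * uC k u Q x⁻¹ = bI (cx x i) :=
    fun x i => Subtype.ext (hcx x i)
  have hg : ∀ x o, pi u Q t tc (uC k u Q x) * B o * pi u Q t tc (uC k u Q x⁻¹) = B (g x o) := by
    intro x o
    rw [hBa, ← map_mul, ← map_mul, hcI, ← hBm]
  have hinj : ∀ x, Function.Injective (g x) := by
    intro x o o' h
    obtain ⟨q, hq, h⟩ := Quotient.exact h
    rw [← out1_iff]
    refine ⟨q, hq, ?_⟩
    rw [← hcx, ← hcx] at h
    have h1 : u q * (u x * b (out1 o) * u x⁻¹) = u x * (u q * b (out1 o)) * u x⁻¹ := by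
      calc u q * (u x * b (out1 o) * u x⁻¹) = (u q * u x) * b (out1 o) * u x⁻¹ := by
            simp only [mul_assoc]
        _ = (u x * u q) * b (out1 o) * u x⁻¹ := by rw [← map_mul, ← map_mul, mul_comm]
        _ = _ := by simp only [mul_assoc]
    rw [h1] at h
    have h2 : u x⁻¹ * (u x * (u q * b (out1 o)) * u x⁻¹) * u x =
        u x⁻¹ * (u x * b (out1 o') * u x⁻¹) * u x := by rw [h]
    have h3 : ∀ w : Λ, u x⁻¹ * (u x * w * u x⁻¹) * u x = w := by
      intro w
      calc u x⁻¹ * (u x * w * u x⁻¹) * u x = (u x⁻¹ * u x) * w * (u x⁻¹ * u x) := by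
            simp only [mul_assoc]
        _ = w := by rw [invu, one_mul, mul_one]
    rwa [h3, h3] at h2
  -- invariance of the coordinates
  have hzc : ∀ x, pi u Q t tc (uC k u Q x) * z * pi u Q t tc (uC k u Q x⁻¹) = z := by
    intro x
    rw [hz, mul_assoc, ← map_mul, ← map_mul, mul_inv_cancel, map_one, map_one, mul_one]
  have hα : ∀ x o, B.repr z (g x o) = B.repr z o := by
    intro x o
    conv_lhs => rw [← hzc x]
    conv_lhs => rw [← B.sum_repr z]
    rw [Finset.mul_sum, Finset.sum_mul, map_sum, Finsupp.finsetSum_apply,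
      Finset.sum_eq_single o]
    · rw [mul_smul_comm, smul_mul_assoc, hg, map_smul, Basis.repr_self, Finsupp.smul_apply,
        Finsupp.single_eq_same, smul_eq_mul, mul_one]
    · intro o' _ ho'
      rw [mul_smul_comm, smul_mul_assoc, hg, map_smul, Basis.repr_self, Finsupp.smul_apply,
        Finsupp.single_eq_of_ne, smul_zero]
      intro h
      exact ho' (hinj x h.symm)
    · intro h; exact absurd (Finset.mem_univ _) h
  let a : CQ k u Q := ∑ o : I1 u b Q, B.repr z o • bI (σ (out1 o))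
  have ha : ((a : CQ k u Q) : Λ) = ∑ o : I1 u b Q, B.repr z o • b (σ (out1 o)) := by
    change ((∑ o : I1 u b Q, B.repr z o • bI (σ (out1 o)) : CQ k u Q) : Λ) = _
    rw [AddSubmonoidClass.coe_finsetSum]
    rfl
  refine ⟨a, fun x => ?_, ?_⟩
  · rw [← conj_eq_iff, ha, Finset.mul_sum, Finset.sum_mul]
    have hbij : Function.Bijective (g x) := Finite.injective_iff_bijective.1 (hinj x)
    rw [← Function.Bijective.sum_comp hbij
      (fun o => B.repr z o • (b (σ (out1 o)) : Λ))]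
    refine Finset.sum_congr rfl fun o _ => ?_
    rw [hα, mul_smul_comm, smul_mul_assoc, hcx]
    have h1 : σ (out1 (g x o)) = cx x (σ (out1 o)) :=
      hσ2 x (out1 o) (out1 (g x o)) ((sQ u b Q).symm (out1_rel _))
    rw [h1]
  · change pi u Q t tc (∑ o : I1 u b Q, B.repr z o • bI (σ (out1 o))) = z
    conv_rhs => rw [← B.sum_repr z]
    rw [map_sum]
    refine Finset.sum_congr rfl fun o _ => ?_
    rw [map_smul, hBa, pi_bI_congr (hσ1 _)]

/-- **Counting**. -/
theorem card_fix (stab : ∀ (x y : D) (i : I), ∃ j, u x * b i * u y = b j)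
    (hU : Untw u b Q) (R : Subgroup D) (hR : Q ≤ R) :
    Nat.card {o : I1 u b Q // ∀ x ∈ R, u x * b (out1 o) = b (out1 o) * u x} * Nat.card Q =
      Nat.card {i : I // ∀ x ∈ R, u x * b i = b i * u x} := by
  classical
  rw [← Nat.card_prod]
  have h0 : ∀ (i : IQ u b Q) (q : D), ∃ j : IQ u b Q, u q * b i = b j := by
    intro i q
    obtain ⟨j, hj⟩ := exists_trans stab i q 1
    exact ⟨j, by rw [← hj, map_one, mul_one]⟩
  choose f hf using h0
  have hfix : ∀ (i : IQ u b Q) (q : D), (∀ x ∈ R, u x * b i = b i * u x) →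
      ∀ x ∈ R, u x * b (f i q) = b (f i q) * u x := by
    intro i q h x hx
    rw [← hf, ← mul_assoc, ← map_mul, mul_comm, map_mul, mul_assoc, h x hx, mul_assoc]
  refine Nat.card_congr (Equiv.ofBijective
    (fun w => ⟨(f (out1 w.1.1) w.2).1, hfix _ _ w.1.2⟩) ⟨?_, ?_⟩)
  · rintro ⟨⟨o, ho⟩, q⟩ ⟨⟨o', ho'⟩, q'⟩ h
    have h1 : (f (out1 o) q).1 = (f (out1 o') q').1 :=
      congrArg (fun z : {i : I // ∀ x ∈ R, u x * b i = b i * u x} => z.1) h
    have h2 : u q * b (out1 o) = u q' * b (out1 o') := by rw [hf, hf, h1]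
    have h3 : o = o' := by
      rw [← out1_iff]
      refine ⟨(q' : D)⁻¹ * q, Q.mul_mem (Q.inv_mem q'.2) q.2, ?_⟩
      rw [map_mul, mul_assoc, h2, ← mul_assoc, invu, one_mul]
    subst h3
    have h4 := hU.inj _ h2
    have h5 : q = q' := Subtype.ext h4
    subst h5
    rfl
  · rintro ⟨i, hi⟩
    have hiQ : ∀ q ∈ Q, u q * b i = b i * u q := fun q hq => hi q (hR hq)
    obtain ⟨q, hq, h⟩ := out1_rel (⟨i, hiQ⟩ : IQ u b Q)
    have ho : ∀ x ∈ R, u x * b (out1 (Quotient.mk (sQ u b Q) ⟨i, hiQ⟩)) =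
        b (out1 (Quotient.mk (sQ u b Q) ⟨i, hiQ⟩)) * u x := by
      intro x hx
      have h1 : b (out1 (Quotient.mk (sQ u b Q) ⟨i, hiQ⟩)) = u q⁻¹ * b i := by
        rw [← h, ← mul_assoc, invu, one_mul]
      rw [h1, ← mul_assoc, ← map_mul, mul_comm x, map_mul, mul_assoc, hi x hx, mul_assoc]
    refine ⟨⟨⟨Quotient.mk _ ⟨i, hiQ⟩, ho⟩, ⟨q, hq⟩⟩, Subtype.ext (b.injective ?_)⟩
    change b (f (out1 (Quotient.mk (sQ u b Q) ⟨i, hiQ⟩)) q) = b i
    rw [← hf]
    exact h

end Vale.P179.H417.Bar
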