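import Mathlib

/-!
# Permutation bases of direct summands (abelian `p`-groups)

`H` an abelian `p`-group acting linearly on `V` (char `p`) with an `H`-stable basis, `π` an
`H`-equivariant idempotent: after an `H`-equivariant automorphism of `V` every basis vector lies
in the range or in the kernel of `π`.
-/

set_option autoImplicit false

namespace Vale.P179.H417

open Finset Module

section Nil

variable {k V H : Type*} [Field k] [AddCommGroup V] [Module k V] [CommGroup H]
  {p : ℕ} [Fact p.Prime] [CharP k p]

theorem isNilpotent_rep_sub_one (hH : IsPGroup p H) (rep : H →* Module.End k V) (h : H) :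
    IsNilpotent (rep h - 1) := by
  obtain ⟨n, hn⟩ := hH h
  refine ⟨p ^ n, ?_⟩
  by_cases hV : Nontrivial V
  · have : Nontrivial (Module.End k V) := inferInstance
    have hch : CharP (Module.End k V) p := by
      have : FaithfulSMul k (Module.End k V) := inferInstance
      exact charP_of_injective_algebraMap (algebraMap k (Module.End k V)).injective p
    rw [sub_pow_char_pow_of_commute _ _ (Commute.one_right _), one_pow, ← map_pow, hn, map_one,
      sub_self]
  · have : Subsingleton V := not_nontrivial_iff_subsingleton.1 hV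
    exact Subsingleton.elim _ _

theorem isUnit_sum_rep (hH : IsPGroup p H) (rep : H →* Module.End k V) {ι : Type*}
    (s : Finset ι) (c : ι → k) (h : ι → H) (hc : ∑ i ∈ s, c i ≠ 0) :
    IsUnit (∑ i ∈ s, c i • rep (h i)) := by
  have hN : IsNilpotent (∑ i ∈ s, c i • (rep (h i) - 1)) := by
    refine Commute.isNilpotent_sum ?_ ?_
    · intro i _
      obtain ⟨n, hn⟩ := isNilpotent_rep_sub_one hH rep (h i)
      exact ⟨n, by rw [smul_pow, hn, smul_zero]⟩
    · intro i j _ _
      have h1 : Commute (rep (h i)) (rep (h j)) := by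
        rw [commute_iff_eq, ← map_mul, ← map_mul, mul_comm]
      exact ((h1.sub_left (Commute.one_left _)).sub_right
        ((Commute.one_right _).sub_left (Commute.one_right _))).smul_left _ |>.smul_right _
  have h2 : ∑ i ∈ s, c i • rep (h i) = (∑ i ∈ s, c i) • (1 : Module.End k V) +
      ∑ i ∈ s, c i • (rep (h i) - 1) := by
    rw [Finset.sum_smul, ← Finset.sum_add_distrib]
    exact Finset.sum_congr rfl fun i _ => by rw [← smul_add, add_sub_cancel]
  rw [h2]
  have hu : IsUnit ((∑ i ∈ s, c i) • (1 : Module.End k V)) := by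
    refine ⟨⟨(∑ i ∈ s, c i) • 1, (∑ i ∈ s, c i)⁻¹ • 1, ?_, ?_⟩, rfl⟩
    · rw [smul_mul_smul_comm, mul_inv_cancel₀ hc, one_smul, one_mul]
    · rw [smul_mul_smul_comm, inv_mul_cancel₀ hc, one_smul, one_mul]
  refine IsNilpotent.isUnit_add_left_of_commute hN hu ?_
  exact (Commute.one_right _).smul_right _

end Nil

section Exch

variable {k V H Ω : Type*} [Field k] [AddCommGroup V] [Module k V] [CommGroup H] [Finite Ω]
  {p : ℕ} [Fact p.Prime] [CharP k p]

/-- the projection onto the span of a set of basis vectors -/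
noncomputable def proj (b : Basis Ω k V) (O : Set Ω) : Module.End k V :=
  b.constr k (fun i => open scoped Classical in if i ∈ O then b i else 0)

open scoped Classical in
omit [Finite Ω] in
theorem proj_apply (b : Basis Ω k V) (O : Set Ω) (i : Ω) :
    proj b O (b i) = if i ∈ O then b i else 0 := by
  unfold proj
  rw [Basis.constr_basis]

/-- One exchange step. -/
theorem exch_step (hH : IsPGroup p H) (rep : H →* Module.End k V) (b : Basis Ω k V)
    (hb : ∀ h i, ∃ j, rep h (b i) = b j) (π : Module.End k V) (hπ : π * π = π)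
    (hc : ∀ h, π * rep h = rep h * π) (i0 : Ω) :
    ∃ φ : V ≃ₗ[k] V, (∀ h v, φ (rep h v) = rep h (φ v)) ∧
      (∀ i, φ (b i) = b i ∨ π (φ (b i)) = φ (b i) ∨ π (φ (b i)) = 0) ∧
      (π (φ (b i0)) = φ (b i0) ∨ π (φ (b i0)) = 0) := by
  classical
  have : Fintype Ω := Fintype.ofFinite Ω
  let O : Set Ω := {i | ∃ h, rep h (b i0) = b i}
  have hO : ∀ h i j, rep h (b i) = b j → (i ∈ O ↔ j ∈ O) := by
    intro h i j hij
    constructor
    · rintro ⟨g, hg⟩
      exact ⟨h * g, by rw [map_mul, Module.End.mul_apply, hg, hij]⟩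
    · rintro ⟨g, hg⟩
      refine ⟨h⁻¹ * g, ?_⟩
      rw [map_mul, Module.End.mul_apply, hg, ← hij, ← Module.End.mul_apply, ← map_mul,
        inv_mul_cancel, map_one, Module.End.one_apply]
  let P : Module.End k V := proj b O
  have hPb : ∀ i, P (b i) = if i ∈ O then b i else 0 := proj_apply b O
  have hPP : ∀ v, P (P v) = P v := by
    intro v
    have : P * P = P := by
      refine b.ext fun i => ?_
      rw [Module.End.mul_apply, hPb]
      split_ifs with h
      · rw [hPb, if_pos h]
      · rw [map_zero]
    exact congrArg (fun f => f v) this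
  have hPc : ∀ h, P * rep h = rep h * P := by
    intro h
    refine b.ext fun i => ?_
    obtain ⟨j, hj⟩ := hb h i
    rw [Module.End.mul_apply, Module.End.mul_apply, hPb, hj, hPb]
    by_cases hi : i ∈ O
    · rw [if_pos hi, if_pos ((hO h i j hj).1 hi), hj]
    · rw [if_neg hi, if_neg (fun h' => hi ((hO h i j hj).2 h')), map_zero]
  have hi0 : i0 ∈ O := ⟨1, by rw [map_one, Module.End.one_apply]⟩
  -- key: an equivariant endomorphism `f` with augmentation nonzero is injective on `P V`
  have key : ∀ f : Module.End k V, (∀ h, f * rep h = rep h * f) →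
      (∑ i ∈ (Finset.univ.filter fun i => i ∈ O), b.repr (f (b i0)) i) ≠ 0 →
      ∀ v, P (f (P v)) = 0 → P v = 0 := by
    intro f hf hne v hv
    choose! g hg using (fun i (hi : i ∈ O) => hi : ∀ i ∈ O, ∃ h, rep h (b i0) = b i)
    let X : Module.End k V := ∑ i ∈ (Finset.univ.filter fun i => i ∈ O),
      b.repr (f (b i0)) i • rep (g i)
    have hX : IsUnit X := isUnit_sum_rep hH rep _ _ _ hne
    have hXc : ∀ h, X * rep h = rep h * X := by
      intro h
      simp only [X, Finset.sum_mul, Finset.mul_sum, smul_mul_assoc, mul_smul_comm, ← map_mul,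
        mul_comm]
    have h1 : P (f (b i0)) = X (b i0) := by
      conv_lhs => rw [← b.sum_repr (f (b i0))]
      rw [map_sum]
      simp only [map_smul, hPb, smul_ite, smul_zero]
      rw [← Finset.sum_filter]
      simp only [X, LinearMap.sum_apply, LinearMap.smul_apply]
      refine Finset.sum_congr rfl fun i hi => ?_
      rw [hg i (Finset.mem_filter.1 hi).2]
    have h2 : ∀ i ∈ O, P (f (b i)) = X (b i) := by
      rintro i ⟨h, hi⟩
      rw [← hi, ← Module.End.mul_apply f, hf, Module.End.mul_apply, ← Module.End.mul_apply P,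
        hPc, Module.End.mul_apply, h1, ← Module.End.mul_apply X, hXc, Module.End.mul_apply]
    have h3 : P * f * P = X * P := by
      refine b.ext fun i => ?_
      simp only [Module.End.mul_apply, hPb]
      split_ifs with hi
      · exact h2 i hi
      · simp
    have h4 : X (P v) = 0 := by
      have := congrArg (fun F : Module.End k V => F v) h3
      simp only [Module.End.mul_apply] at this
      rw [← this, hv]
    obtain ⟨Y, hY⟩ := hX.exists_left_inv
    have := congrArg Y h4
    rwa [← Module.End.mul_apply, hY, Module.End.one_apply, map_zero] at this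
  -- the map for an idempotent `f`
  have build : ∀ f : Module.End k V, f * f = f → (∀ h, f * rep h = rep h * f) →
      (∑ i ∈ (Finset.univ.filter fun i => i ∈ O), b.repr (f (b i0)) i) ≠ 0 →
      ∃ φ : V ≃ₗ[k] V, (∀ h v, φ (rep h v) = rep h (φ v)) ∧
        (∀ i ∈ O, φ (b i) = f (b i)) ∧ (∀ i ∉ O, φ (b i) = b i) := by
    intro f _ hf hne
    let F : Module.End k V := f * P + (1 - P)
    have hFi : Function.Injective F := by
      rw [← LinearMap.ker_eq_bot, LinearMap.ker_eq_bot']
      intro v hv
      have e1 : f (P v) + (v - P v) = 0 := hv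
      have e2 : P (f (P v)) = 0 := by
        have := congrArg P e1
        rw [map_add, map_sub, hPP, sub_self, add_zero, map_zero] at this
        exact this
      have e3 := key f hf hne v e2
      rw [e3, map_zero, sub_zero, zero_add] at e1
      exact e1
    have : FiniteDimensional k V := Module.Finite.of_basis b
    refine ⟨LinearEquiv.ofInjectiveEndo F hFi, ?_, ?_, ?_⟩
    · intro h v
      change F (rep h v) = rep h (F v)
      rw [← Module.End.mul_apply, ← Module.End.mul_apply]
      congr 1
      simp only [F, add_mul, mul_add, sub_mul, mul_sub, one_mul, mul_one]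
      rw [mul_assoc, hPc, ← mul_assoc, hf, mul_assoc]
    · intro i hi
      change f (P (b i)) + (b i - P (b i)) = _
      rw [hPb, if_pos hi, sub_self, add_zero]
    · intro i hi
      change f (P (b i)) + (b i - P (b i)) = _
      rw [hPb, if_neg hi, map_zero, sub_zero, zero_add]
  have hsum : (∑ i ∈ (Finset.univ.filter fun i => i ∈ O), b.repr (π (b i0)) i) +
      (∑ i ∈ (Finset.univ.filter fun i => i ∈ O), b.repr ((1 - π) (b i0)) i) = 1 := by
    rw [← Finset.sum_add_distrib]
    have : ∀ i, b.repr (π (b i0)) i + b.repr ((1 - π) (b i0)) i = if i = i0 then 1 else 0 := by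
      intro i
      rw [← Finsupp.add_apply, ← map_add, LinearMap.sub_apply, Module.End.one_apply,
        add_sub_cancel, Basis.repr_self, Finsupp.single_apply]
      simp only [eq_comm]
    simp only [this]
    rw [Finset.sum_ite_eq', if_pos]
    exact Finset.mem_filter.2 ⟨Finset.mem_univ _, hi0⟩
  by_cases h0 : (∑ i ∈ (Finset.univ.filter fun i => i ∈ O), b.repr (π (b i0)) i) = 0
  · rw [h0, zero_add] at hsum
    have hc' : ∀ h, (1 - π) * rep h = rep h * (1 - π) := by
      intro h; rw [sub_mul, mul_sub, hc, one_mul, mul_one]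
    have hid : (1 - π) * (1 - π) = 1 - π := by
      rw [sub_mul, mul_sub, mul_sub, hπ]; simp
    obtain ⟨φ, h1, h2, h3⟩ := build (1 - π) hid hc' (by rw [hsum]; exact one_ne_zero)
    have h4 : ∀ i ∈ O, π (φ (b i)) = 0 := by
      intro i hi
      rw [h2 i hi, LinearMap.sub_apply, Module.End.one_apply, map_sub, ← Module.End.mul_apply π π,
        hπ, sub_self]
    refine ⟨φ, h1, fun i => ?_, Or.inr (h4 i0 hi0)⟩
    by_cases hi : i ∈ O
    · exact Or.inr (Or.inr (h4 i hi))
    · exact Or.inl (h3 i hi)
  · obtain ⟨φ, h1, h2, h3⟩ := build π hπ hc h0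
    have h4 : ∀ i ∈ O, π (φ (b i)) = φ (b i) := by
      intro i hi
      rw [h2 i hi, ← Module.End.mul_apply π π, hπ]
    refine ⟨φ, h1, fun i => ?_, Or.inl (h4 i0 hi0)⟩
    by_cases hi : i ∈ O
    · exact Or.inr (Or.inl (h4 i hi))
    · exact Or.inl (h3 i hi)

/-- **Exchange**: after an equivariant automorphism every vector of the permutation basis lies in
the range or in the kernel of the equivariant idempotent `π`. -/
theorem exchange (hH : IsPGroup p H) (rep : H →* Module.End k V) (b : Basis Ω k V)
    (hb : ∀ h i, ∃ j, rep h (b i) = b j) (π : Module.End k V) (hπ : π * π = π)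
    (hc : ∀ h, π * rep h = rep h * π) :
    ∃ φ : V ≃ₗ[k] V, (∀ h v, φ (rep h v) = rep h (φ v)) ∧
      ∀ i, π (φ (b i)) = φ (b i) ∨ π (φ (b i)) = 0 := by
  classical
  have : Fintype Ω := Fintype.ofFinite Ω
  have main : ∀ s : Finset Ω, ∃ φ : V ≃ₗ[k] V, (∀ h v, φ (rep h v) = rep h (φ v)) ∧
      ∀ i ∈ s, π (φ (b i)) = φ (b i) ∨ π (φ (b i)) = 0 := by
    intro s
    induction s using Finset.induction_on with
    | empty => exact ⟨LinearEquiv.refl k V, fun _ _ => rfl, by simp⟩
    | insert i0 s _ ih =>
      obtain ⟨φ, h1, h2⟩ := ih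
      have hb' : ∀ h i, ∃ j, rep h ((b.map φ) i) = (b.map φ) j := by
        intro h i
        obtain ⟨j, hj⟩ := hb h i
        exact ⟨j, by rw [Basis.map_apply, Basis.map_apply, ← h1, hj]⟩
      obtain ⟨ψ, e1, e2, e3⟩ := exch_step hH rep (b.map φ) hb' π hπ hc i0
      refine ⟨φ.trans ψ, fun h v => ?_, fun i hi => ?_⟩
      · rw [LinearEquiv.trans_apply, LinearEquiv.trans_apply, h1, e1]
      · simp only [LinearEquiv.trans_apply]
        rcases Finset.mem_insert.1 hi with rfl | hi
        · exact e3
        · rcases e2 i with h | h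
          · rw [Basis.map_apply] at h
            rw [h]
            exact h2 i hi
          · exact h
  obtain ⟨φ, h1, h2⟩ := main Finset.univ
  exact ⟨φ, h1, fun i => h2 i (Finset.mem_univ i)⟩

end Exch

end Vale.P179.H417
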